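import Mathlib.Data.Sym.Sym2
import Mathlib.Data.Fintype.Card
import Mathlib.Data.Fintype.Sum
import Mathlib.Data.Finset.SymmDiff
import Mathlib.Algebra.BigOperators.Group.Finset.Piecewise
import Mathlib.Algebra.Order.BigOperators.Group.Finset
import Mathlib.Tactic

/-! Edge sets on `Fin n`, degrees, and the single edge move. -/

open Finset
open scoped symmDiff

namespace Vale.Agent.P335

variable {n : ℕ}

/-- `1` if `v` is an endpoint of `e`, and `0` otherwise. -/
def inc (v : Fin n) (e : Sym2 (Fin n)) : ℤ := if v ∈ e then 1 else 0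

/-- Degree of `v` in an edge set. -/
def deg (X : Finset (Sym2 (Fin n))) (v : Fin n) : ℤ := ∑ e ∈ X, inc v e

/-- No loops. -/
def Loopless (X : Finset (Sym2 (Fin n))) : Prop := ∀ e ∈ X, ¬ e.IsDiag

/-- `X` is the edge set of a realisation of `d`. -/
def IsReal (d : Fin n → ℕ) (X : Finset (Sym2 (Fin n))) : Prop :=
  Loopless X ∧ ∀ v, deg X v = d v

/-- Neighbourhood. -/
def nb (X : Finset (Sym2 (Fin n))) (v : Fin n) : Finset (Fin n) :=
  univ.filter (fun u => s(v, u) ∈ X)

/-- Indicator in `ℤ` of equality. -/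
def ind (v a : Fin n) : ℤ := if v = a then 1 else 0

theorem inc_mk (v : Fin n) {a b : Fin n} (h : a ≠ b) : inc v s(a, b) = ind v a + ind v b := by
  unfold inc ind
  by_cases ha : v = a
  · subst ha; simp [h]
  · by_cases hb : v = b
    · subst hb; simp [h.symm]
    · simp [ha, hb]

theorem ne_of_mem {X : Finset (Sym2 (Fin n))} (hX : Loopless X) {a b : Fin n}
    (h : s(a, b) ∈ X) : a ≠ b := fun e => hX _ h (by simp [e])

theorem deg_eq_card_nb (X : Finset (Sym2 (Fin n))) (v : Fin n) : deg X v = (nb X v).card := by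
  have h : (nb X v).image (fun u => s(v, u)) = X.filter (fun e => v ∈ e) := by
    ext e
    simp only [nb, mem_image, mem_filter, mem_univ, true_and]
    constructor
    · rintro ⟨u, hu, rfl⟩; exact ⟨hu, Sym2.mem_mk_left v u⟩
    · rintro ⟨he, hv⟩
      exact ⟨Sym2.Mem.other hv, by rw [Sym2.other_spec hv]; exact he, Sym2.other_spec hv⟩
  have hi : ((nb X v).image (fun u => s(v, u))).card = (nb X v).card :=
    card_image_of_injective _ (fun a b hab => Sym2.congr_right.mp hab)
  simp only [deg, inc]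
  rw [Finset.sum_boole, ← hi, h]

/-- Degree change when the edge set `F` is toggled. -/
theorem deg_symmDiff (X F : Finset (Sym2 (Fin n))) (v : Fin n) :
    deg (X ∆ F) v = deg X v + ∑ e ∈ F, (if e ∈ X then (-1 : ℤ) else 1) * inc v e := by
  have key : ∀ A : Finset (Sym2 (Fin n)), ∀ g : Sym2 (Fin n) → ℤ,
      ∑ e ∈ A, g e = ∑ e, (if e ∈ A then g e else 0) := fun A g => by
    rw [Finset.sum_ite_mem, univ_inter]
  unfold deg
  rw [key (X ∆ F), key X, key F, ← Finset.sum_add_distrib]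
  refine Finset.sum_congr rfl (fun e _ => ?_)
  by_cases hX : e ∈ X <;> by_cases hF : e ∈ F <;> simp [hX, hF, mem_symmDiff]

theorem Loopless.toggle {X F : Finset (Sym2 (Fin n))} (hX : Loopless X) (hF : Loopless F) :
    Loopless (X ∆ F) := by
  intro e he
  rcases mem_symmDiff.mp he with h | h
  · exact hX e h.1
  · exact hF e h.1

theorem loopless_pair {a b c e : Fin n} (h1 : a ≠ b) (h2 : c ≠ e) :
    Loopless ({s(a, b), s(c, e)} : Finset (Sym2 (Fin n))) := by
  intro x hx
  simp only [mem_insert, mem_singleton] at hx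
  rcases hx with rfl | rfl <;> simpa

/-- Moving the end `y` of the edge `yx` to `z`. -/
theorem move_spec {X : Finset (Sym2 (Fin n))} (hX : Loopless X) {x y z : Fin n}
    (h1 : s(y, x) ∈ X) (h2 : s(z, x) ∉ X) (hxz : z ≠ x) :
    Loopless (X ∆ {s(y, x), s(z, x)}) ∧
      ∀ v, deg (X ∆ {s(y, x), s(z, x)}) v = deg X v - ind v y + ind v z := by
  have hyx : y ≠ x := ne_of_mem hX h1
  refine ⟨hX.toggle (loopless_pair hyx hxz), fun v => ?_⟩
  have hne : s(y, x) ≠ s(z, x) := fun e => h2 (e ▸ h1)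
  rw [deg_symmDiff, Finset.sum_pair hne, if_pos h1, if_neg h2, inc_mk v hyx, inc_mk v hxz]
  ring

/-- A vertex of larger degree has a private neighbour. -/
theorem exists_private {X : Finset (Sym2 (Fin n))} (hX : Loopless X) {y z : Fin n}
    (hd : deg X z + 1 ≤ deg X y) :
    ∃ x, s(y, x) ∈ X ∧ s(z, x) ∉ X ∧ z ≠ x := by
  by_contra hc
  push Not at hc
  rw [deg_eq_card_nb, deg_eq_card_nb] at hd
  have hd' : (nb X z).card + 1 ≤ (nb X y).card := by exact_mod_cast hd
  have hsub : ∀ x ∈ nb X y, x ≠ z → x ∈ nb X z := by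
    intro x hx hxz
    simp only [nb, mem_filter, mem_univ, true_and] at hx ⊢
    by_contra h
    exact hxz ((hc x hx h).symm)
  by_cases hz : z ∈ nb X y
  · have hy : y ∈ nb X z := by
      simp only [nb, mem_filter, mem_univ, true_and] at hz ⊢
      rwa [Sym2.eq_swap]
    have hsub' : (nb X y).erase z ⊆ (nb X z).erase y := by
      intro x hx
      rw [mem_erase] at hx ⊢
      refine ⟨?_, hsub x hx.2 hx.1⟩
      intro e
      subst e
      have : s(x, x) ∈ X := by simpa [nb] using hx.2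
      exact ne_of_mem hX this rfl
    have := card_le_card hsub'
    rw [card_erase_of_mem hz, card_erase_of_mem hy] at this
    have : 1 ≤ (nb X z).card := card_pos.mpr ⟨y, hy⟩
    omega
  · have : nb X y ⊆ nb X z := fun x hx => hsub x hx (fun e => hz (e ▸ hx))
    have := card_le_card this
    omega

theorem card_symmDiff_le' {α : Type*} [DecidableEq α] (A B : Finset α) :
    (A ∆ B).card ≤ A.card + B.card :=
  (card_le_card symmDiff_le_sup).trans (card_union_le A B)

/-- A switch on edge sets. -/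
def IsSwitch (X Y : Finset (Sym2 (Fin n))) : Prop :=
  ∃ a b c e : Fin n, a ≠ b ∧ a ≠ c ∧ a ≠ e ∧ b ≠ c ∧ b ≠ e ∧ c ≠ e ∧
    s(a, b) ∈ X ∧ s(c, e) ∈ X ∧ s(a, c) ∉ X ∧ s(b, e) ∉ X ∧
    Y = X ∆ {s(a, b), s(c, e), s(a, c), s(b, e)}

theorem IsSwitch.symm {X Y : Finset (Sym2 (Fin n))} (h : IsSwitch X Y) : IsSwitch Y X := by
  obtain ⟨a, b, c, e, h1, h2, h3, h4, h5, h6, i1, i2, o1, o2, rfl⟩ := h
  refine ⟨a, c, b, e, h2, h1, h3, h4.symm, h6, h5, ?_, ?_, ?_, ?_, ?_⟩
  · simp [mem_symmDiff, o1]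
  · simp [mem_symmDiff, o2]
  · simp [mem_symmDiff, i1]
  · simp [mem_symmDiff, i2]
  · have : ({s(a, c), s(b, e), s(a, b), s(c, e)} : Finset (Sym2 (Fin n))) =
        {s(a, b), s(c, e), s(a, c), s(b, e)} := by
      ext x; simp only [mem_insert, mem_singleton]; tauto
    rw [this, symmDiff_symmDiff_cancel_right]

theorem IsSwitch.real {d : Fin n → ℕ} {X Y : Finset (Sym2 (Fin n))} (hX : IsReal d X)
    (h : IsSwitch X Y) : IsReal d Y := by
  obtain ⟨a, b, c, e, h1, h2, h3, h4, h5, h6, i1, i2, o1, o2, rfl⟩ := h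
  have n1 : s(a, b) ≠ s(c, e) := by simp [h2, h3]
  have n2 : s(a, b) ≠ s(a, c) := fun x => o1 (x ▸ i1)
  have n3 : s(a, b) ≠ s(b, e) := fun x => o2 (x ▸ i1)
  have n4 : s(c, e) ≠ s(a, c) := fun x => o1 (x ▸ i2)
  have n5 : s(c, e) ≠ s(b, e) := fun x => o2 (x ▸ i2)
  have n6 : s(a, c) ≠ s(b, e) := by simp [h1, h3]
  refine ⟨hX.1.toggle ?_, fun v => ?_⟩
  · intro x hx
    simp only [mem_insert, mem_singleton] at hx
    rcases hx with rfl | rfl | rfl | rfl <;> simpa
  · rw [deg_symmDiff, hX.2 v, Finset.sum_insert (by simp [n1, n2, n3]),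
      Finset.sum_insert (by simp [n4, n5]), Finset.sum_pair n6,
      if_pos i1, if_pos i2, if_neg o1, if_neg o2,
      inc_mk v h1, inc_mk v h6, inc_mk v h2, inc_mk v h5]
    ring

theorem IsSwitch.card_le {X Y : Finset (Sym2 (Fin n))} (h : IsSwitch X Y) :
    (X ∆ Y).card ≤ 4 := by
  obtain ⟨a, b, c, e, h1, h2, h3, h4, h5, h6, i1, i2, o1, o2, rfl⟩ := h
  rw [symmDiff_symmDiff_cancel_left]
  exact card_le_four

end Vale.Agent.P335
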