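import Vale.Agent.P335.Basic

/-! Two realisations at bounded distance are joined by a bounded number of switches. -/

open Finset
open scoped symmDiff

namespace Vale.Agent.P335

variable {n : ℕ}

theorem mem_nb {X : Finset (Sym2 (Fin n))} {v u : Fin n} : u ∈ nb X v ↔ s(v, u) ∈ X := by
  simp [nb]

theorem card_nb_sdiff {d : Fin n → ℕ} {G H : Finset (Sym2 (Fin n))} (hG : IsReal d G)
    (hH : IsReal d H) (v : Fin n) : (nb (G \ H) v).card = (nb (H \ G) v).card := by
  have e1 : ∀ A B : Finset (Sym2 (Fin n)), nb (A \ B) v = nb A v \ nb B v := by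
    intro A B; ext u; simp [mem_nb]
  have h := (deg_eq_card_nb G v).symm.trans ((hG.2 v).trans ((hH.2 v).symm.trans (deg_eq_card_nb H v)))
  rw [e1, e1]
  exact card_sdiff_comm (by exact_mod_cast h)

/-- An alternating trail `e a b c` whose closing edge is not of the colour `H \ G`. -/
theorem exists_trail {d : Fin n → ℕ} {G H : Finset (Sym2 (Fin n))} (hG : IsReal d G)
    (hH : IsReal d H) (hne : G ≠ H) :
    ∃ e a b c, s(a, b) ∈ G \ H ∧ s(e, a) ∈ H \ G ∧ s(b, c) ∈ H \ G ∧ e ≠ c ∧
      s(e, c) ∉ H \ G := by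
  set R := G \ H with hR
  set B := H \ G with hB
  have hcard : ∀ v, (nb R v).card = (nb B v).card := card_nb_sdiff hG hH
  have hlR : Loopless R := fun e he => hG.1 e (mem_sdiff.mp he).1
  have hlB : Loopless B := fun e he => hH.1 e (mem_sdiff.mp he).1
  have hRne : ∃ u w, s(u, w) ∈ R := by
    by_contra hc
    push Not at hc
    have hR0 : R = ∅ := by
      rw [eq_empty_iff_forall_notMem]
      intro x; induction x using Sym2.ind with | _ u w => exact hc u w
    have hB0 : B = ∅ := by
      rw [eq_empty_iff_forall_notMem]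
      intro x; induction x using Sym2.ind with
      | _ u w =>
        intro hx
        have : 0 < (nb B u).card := card_pos.mpr ⟨w, mem_nb.mpr hx⟩
        rw [← hcard u, hR0] at this
        simp [nb] at this
    apply hne
    rw [hR] at hR0; rw [hB] at hB0
    exact Subset.antisymm (sdiff_eq_empty_iff_subset.mp hR0) (sdiff_eq_empty_iff_subset.mp hB0)
  obtain ⟨u, w, huw⟩ := hRne
  obtain ⟨a, -, hmax⟩ := exists_max_image (univ : Finset (Fin n))
    (fun v => (nb B v).card) ⟨u, mem_univ u⟩
  have hpos : 0 < (nb R a).card := by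
    have : 0 < (nb R u).card := card_pos.mpr ⟨w, mem_nb.mpr huw⟩
    have h := hmax u (mem_univ u)
    rw [hcard] at this
    rw [hcard]
    exact lt_of_lt_of_le this h
  obtain ⟨b, hb⟩ := card_pos.mp hpos
  rw [mem_nb] at hb
  have hposb : 0 < (nb B b).card := by
    rw [← hcard b]; exact card_pos.mpr ⟨a, mem_nb.mpr (by rwa [Sym2.eq_swap])⟩
  obtain ⟨c, hc⟩ := card_pos.mp hposb
  rw [mem_nb] at hc
  by_contra hcon
  push Not at hcon
  -- otherwise `c` has more `B`-neighbours than `a`
  have hab : a ≠ b := ne_of_mem hlR hb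
  have hbB : b ∉ nb B a := by
    rw [mem_nb, hB]; rw [hR] at hb
    simp only [mem_sdiff] at hb ⊢; tauto
  have haB : a ∉ nb B a := fun h => ne_of_mem hlB (mem_nb.mp h) rfl
  have hsub : ∀ e ∈ nb B a, e ≠ c → e ∈ nb B c := by
    intro e he hec
    rw [mem_nb] at he ⊢
    have := hcon e a b c hb (by rwa [Sym2.eq_swap]) hc hec
    rwa [Sym2.eq_swap]
  have hcb : b ∈ nb B c := by rw [mem_nb, Sym2.eq_swap]; exact hc
  by_cases hca : c ∈ nb B a
  · have hac : a ∈ nb B c := by rw [mem_nb, Sym2.eq_swap]; exact mem_nb.mp hca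
    have : insert b (insert a ((nb B a).erase c)) ⊆ nb B c := by
      intro x hx
      simp only [mem_insert, mem_erase] at hx
      rcases hx with rfl | rfl | ⟨h1, h2⟩
      · exact hcb
      · exact hac
      · exact hsub x h2 h1
    have h := card_le_card this
    rw [card_insert_of_notMem (by simp [hab.symm, hbB]), card_insert_of_notMem (by simp [haB]),
      card_erase_of_mem hca] at h
    have := hmax c (mem_univ c)
    have : 0 < (nb B a).card := card_pos.mpr ⟨c, hca⟩
    omega
  · have : insert b (nb B a) ⊆ nb B c := by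
      intro x hx
      simp only [mem_insert] at hx
      rcases hx with rfl | h2
      · exact hcb
      · exact hsub x h2 (fun e => hca (e ▸ h2))
    have h := card_le_card this
    rw [card_insert_of_notMem hbB] at h
    have := hmax c (mem_univ c)
    omega

theorem card_lt_of_three {A F T : Finset (Sym2 (Fin n))} {q : Sym2 (Fin n)}
    (hTA : T ⊆ A) (hTF : T ⊆ F) (hF : F ⊆ insert q T) (h3 : T.card = 3) :
    (A ∆ F).card < A.card := by
  have h : A ∆ F ⊆ insert q (A \ T) := by
    intro x hx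
    rcases mem_symmDiff.mp hx with ⟨h1, h2⟩ | ⟨h1, h2⟩
    · exact mem_insert_of_mem (mem_sdiff.mpr ⟨h1, fun h => h2 (hTF h)⟩)
    · rcases mem_insert.mp (hF h1) with h | h
      · exact mem_insert.mpr (Or.inl h)
      · exact absurd (hTA h) h2
  have h1 := (card_le_card h).trans (card_insert_le q (A \ T))
  have h2 := card_sdiff_of_subset hTA
  have h4 := card_le_card hTA
  omega

/-- Some switch of `G` or of `H` reduces their distance. -/
theorem exists_closer {d : Fin n → ℕ} {G H : Finset (Sym2 (Fin n))} (hG : IsReal d G)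
    (hH : IsReal d H) (hne : G ≠ H) :
    (∃ G', IsSwitch G G' ∧ (G' ∆ H).card < (G ∆ H).card) ∨
      (∃ H', IsSwitch H H' ∧ (G ∆ H').card < (G ∆ H).card) := by
  obtain ⟨e, a, b, c, hab, hea, hbc, hec, hcl⟩ := exists_trail hG hH hne
  simp only [mem_sdiff] at hab hea hbc hcl
  have n1 : a ≠ b := ne_of_mem hG.1 hab.1
  have n2 : e ≠ a := ne_of_mem hH.1 hea.1
  have n3 : b ≠ c := ne_of_mem hH.1 hbc.1
  have n4 : e ≠ b := by rintro rfl; rw [Sym2.eq_swap] at hea; exact hea.2 hab.1
  have n5 : a ≠ c := by rintro rfl; rw [Sym2.eq_swap] at hbc; exact hbc.2 hab.1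
  have hT : ({s(a, b), s(e, a), s(b, c)} : Finset (Sym2 (Fin n))) ⊆ G ∆ H := by
    intro x hx
    simp only [mem_insert, mem_singleton] at hx
    rcases hx with rfl | rfl | rfl <;> rw [mem_symmDiff] <;> tauto
  have hT3 : ({s(a, b), s(e, a), s(b, c)} : Finset (Sym2 (Fin n))).card = 3 := by
    rw [card_eq_three]
    refine ⟨_, _, _, ?_, ?_, ?_, rfl⟩
    · intro h; exact hea.2 (h ▸ hab.1)
    · intro h; exact hbc.2 (h ▸ hab.1)
    · simp [n4, hec, n5]
  by_cases hG' : s(e, c) ∈ G
  · left
    refine ⟨G ∆ {s(a, b), s(e, c), s(a, e), s(b, c)},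
      ⟨a, b, e, c, n1, n2.symm, n5, n4.symm, n3, hec, hab.1, hG', ?_, hbc.2, rfl⟩, ?_⟩
    · rw [Sym2.eq_swap]; exact hea.2
    rw [symmDiff_assoc, symmDiff_comm _ H, ← symmDiff_assoc]
    refine card_lt_of_three (T := {s(a, b), s(e, a), s(b, c)}) (q := s(e, c)) hT ?_ ?_ hT3
    · simp [insert_subset_iff, Sym2.eq_swap (a := e) (b := a)]
    · simp [insert_subset_iff, Sym2.eq_swap (a := e) (b := a)]
  · right
    have hH' : s(e, c) ∉ H := by tauto
    refine ⟨H ∆ {s(a, e), s(b, c), s(a, b), s(e, c)},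
      ⟨a, e, b, c, n2.symm, n1, n5, n4, hec, n3, ?_, hbc.1, hab.2, hH', rfl⟩, ?_⟩
    · rw [Sym2.eq_swap]; exact hea.1
    rw [← symmDiff_assoc]
    refine card_lt_of_three (T := {s(a, b), s(e, a), s(b, c)}) (q := s(e, c)) hT ?_ ?_ hT3
    · simp [insert_subset_iff, Sym2.eq_swap (a := e) (b := a)]
    · simp [insert_subset_iff, Sym2.eq_swap (a := e) (b := a)]

/-- `Y` is reached from `X` by at most `m` switches, all intermediate sets being within
`4 m` of both. -/
inductive Link : ℕ → Finset (Sym2 (Fin n)) → Finset (Sym2 (Fin n)) → Prop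
  | refl (m : ℕ) (X : Finset (Sym2 (Fin n))) : Link m X X
  | head (m : ℕ) (X Y Z : Finset (Sym2 (Fin n))) :
      IsSwitch X Y → Link m Y Z → Link (m + 1) X Z

theorem Link.mono {m : ℕ} {X Y : Finset (Sym2 (Fin n))} (h : Link m X Y) :
    Link (m + 1) X Y := by
  induction h with
  | refl m X => exact Link.refl _ _
  | head m X Y Z h1 _ ih => exact Link.head _ _ _ _ h1 ih

theorem Link.snoc {m : ℕ} {X Y Z : Finset (Sym2 (Fin n))} (h : Link m X Y)
    (h2 : IsSwitch Y Z) : Link (m + 1) X Z := by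
  induction h with
  | refl m X => exact Link.head _ _ _ _ h2 (Link.refl _ _)
  | head m X Y W h1 _ ih => exact Link.head _ _ _ _ h1 (ih h2)

theorem link_of_dist {d : Fin n → ℕ} (m : ℕ) :
    ∀ G H : Finset (Sym2 (Fin n)), IsReal d G → IsReal d H → (G ∆ H).card ≤ m → Link m G H := by
  induction m with
  | zero =>
    intro G H _ _ h
    have : G = H := symmDiff_eq_bot.mp (card_eq_zero.mp (Nat.le_zero.mp h))
    subst this; exact Link.refl _ _
  | succ m ih =>
    intro G H hG hH h
    by_cases hne : G = H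
    · subst hne; exact Link.refl _ _
    rcases exists_closer hG hH hne with ⟨G', hs, hc⟩ | ⟨H', hs, hc⟩
    · exact Link.head _ _ _ _ hs (ih G' H (hs.real hG) hH (by omega))
    · exact (ih G H' hG (hs.real hH) (by omega)).snoc hs.symm

end Vale.Agent.P335
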