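import Vale.Agent.P335.Connect
import Vale.Agent.P335.Link
import Mathlib.Combinatorics.SimpleGraph.Paths
import Mathlib.Combinatorics.SimpleGraph.Connectivity.Connected
import Mathlib.Algebra.Order.Chebyshev
import Mathlib.Data.Real.Basic

/-! The comparison of the variance with the sum of squared switch differences. -/

open Finset
open scoped symmDiff

namespace Vale.Agent.P335

variable {n : ℕ}

open Classical in
/-- All realisations. -/
noncomputable def realSet (d : Fin n → ℕ) : Finset (Finset (Sym2 (Fin n))) :=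
  univ.filter (IsReal d)

theorem mem_realSet {d : Fin n → ℕ} {X : Finset (Sym2 (Fin n))} :
    X ∈ realSet d ↔ IsReal d X := by simp [realSet]

open Classical in
/-- Sum of squared differences over switches. -/
noncomputable def switchEnergy (d : Fin n → ℕ) (φ : Finset (Sym2 (Fin n)) → ℝ) : ℝ :=
  ∑ X ∈ realSet d, ∑ Y ∈ realSet d, if IsSwitch X Y then (φ Y - φ X) ^ 2 else 0

/-- Sum of squared differences over pairs at distance at most `k`. -/
noncomputable def nearEnergy (d : Fin n → ℕ) (k : ℕ) (φ : Finset (Sym2 (Fin n)) → ℝ) : ℝ :=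
  ∑ X ∈ realSet d, ∑ Y ∈ (realSet d).filter (fun Y => (X ∆ Y).card ≤ k), (φ Y - φ X) ^ 2

/-- Subsets with at most `k` elements. -/
def smallSets (α : Type*) [Fintype α] [DecidableEq α] (k : ℕ) : Finset (Finset α) :=
  univ.filter (fun s => s.card ≤ k)

theorem card_smallSets (α : Type*) [Fintype α] [DecidableEq α] (k : ℕ) :
    (smallSets α k).card ≤ (Fintype.card α + 1) ^ k := by
  induction k with
  | zero =>
    have : smallSets α 0 = {∅} := by ext s; simp [smallSets]
    simp [this]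
  | succ k ih =>
    have hsub : smallSets α (k + 1) ⊆ (smallSets α k ×ˢ (univ : Finset (Option α))).image
        (fun p => p.2.elim p.1 (fun a => insert a p.1)) := by
      intro s hs
      simp only [smallSets, mem_filter, mem_univ, true_and] at hs
      rw [mem_image]
      by_cases he : s = ∅
      · exact ⟨(∅, none), by simp [smallSets], by simp [he]⟩
      · obtain ⟨a, ha⟩ := Finset.nonempty_iff_ne_empty.mpr he
        refine ⟨(s.erase a, some a), ?_, by simp [insert_erase ha]⟩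
        simp [smallSets, card_erase_of_mem ha]
        omega
    refine (card_le_card hsub).trans (card_image_le.trans ?_)
    rw [card_product, card_univ, Fintype.card_option, pow_succ]
    exact Nat.mul_le_mul_right _ ih

theorem card_sym2_le (n : ℕ) : Fintype.card (Sym2 (Fin n)) ≤ n * n := by
  have h : Function.Surjective (dedge (n := n)) := by
    intro e
    induction e using Sym2.ind with
    | _ u v => exact ⟨(u, v), rfl⟩
  simpa using Fintype.card_le_of_surjective _ h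

theorem card_small_edges (n k : ℕ) : (smallSets (Sym2 (Fin n)) k).card ≤ (n * n + 1) ^ k :=
  (card_smallSets _ k).trans (Nat.pow_le_pow_left (Nat.succ_le_succ (card_sym2_le n)) k)

theorem card_small_darts (n k : ℕ) : (smallSets (Fin n × Fin n) k).card ≤ (n * n + 1) ^ k :=
  (card_smallSets _ k).trans (by simp)

theorem card_near (S : Finset (Finset (Sym2 (Fin n)))) (X : Finset (Sym2 (Fin n))) (k : ℕ) :
    (S.filter (fun Y => (X ∆ Y).card ≤ k)).card ≤ (n * n + 1) ^ k := by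
  refine le_trans ?_ (card_small_edges n k)
  refine card_le_card_of_injOn (fun Y => X ∆ Y) ?_ ?_
  · intro Y hY
    simp only [coe_filter, Set.mem_ofPred_eq] at hY
    simp [smallSets, hY.2]
  · intro Y _ Z _ h
    exact symmDiff_right_injective X h

theorem sum_near_le {d : Fin n → ℕ} (k : ℕ) (h : Finset (Sym2 (Fin n)) → ℝ)
    (h0 : ∀ U, 0 ≤ h U) :
    ∑ X ∈ realSet d, ∑ U ∈ (realSet d).filter (fun U => (X ∆ U).card ≤ k), h U ≤
      ((n * n + 1) ^ k : ℕ) * ∑ U ∈ realSet d, h U := by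
  rw [Finset.sum_comm' (t' := realSet d)
    (s' := fun U => (realSet d).filter (fun X => (U ∆ X).card ≤ k))]
  · rw [mul_sum]
    refine sum_le_sum (fun U _ => ?_)
    rw [sum_const, nsmul_eq_mul]
    exact mul_le_mul_of_nonneg_right (by exact_mod_cast card_near _ U k) (h0 U)
  · intro X U
    simp only [mem_filter]
    rw [symmDiff_comm U X]
    tauto

/-- Near pairs are controlled by switches. -/
theorem nearEnergy_le {d : Fin n → ℕ} (k : ℕ) (φ : Finset (Sym2 (Fin n)) → ℝ) :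
    nearEnergy d k φ ≤
      ((4 : ℝ) ^ k * ((n * n + 1) ^ k : ℕ) * ((n * n + 1) ^ (4 * k) : ℕ)) *
        switchEnergy d φ := by
  classical
  let h : Finset (Sym2 (Fin n)) → ℝ := fun U =>
    ∑ V ∈ realSet d, if IsSwitch U V then (φ V - φ U) ^ 2 else 0
  have h0 : ∀ U, 0 ≤ h U := fun U => sum_nonneg (fun V _ => by split_ifs <;> positivity)
  have hlink : ∀ m X Z, Link m X Z → IsReal d X →
      (φ Z - φ X) ^ 2 ≤
        (4 : ℝ) ^ m * ∑ U ∈ (realSet d).filter (fun U => (X ∆ U).card ≤ 4 * m), h U := by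
    intro m X Z hl
    induction hl with
    | refl m X =>
      intro _
      rw [sub_self, zero_pow two_ne_zero]
      exact mul_nonneg (by positivity) (sum_nonneg (fun U _ => h0 U))
    | head m X Y Z hs _ ih =>
      intro hX
      have hY := hs.real hX
      have h1 : (φ Y - φ X) ^ 2 ≤
          ∑ U ∈ (realSet d).filter (fun U => (X ∆ U).card ≤ 4 * (m + 1)), h U := by
        refine le_trans ?_ (single_le_sum (fun U _ => h0 U)
          (show X ∈ _ by simp [mem_realSet, hX]))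
        have hh := single_le_sum (f := fun V => if IsSwitch X V then (φ V - φ X) ^ 2 else 0)
          (fun V _ => by split_ifs <;> positivity) (mem_realSet.mpr hY)
        rwa [if_pos hs] at hh
      have h2 : ∑ U ∈ (realSet d).filter (fun U => (Y ∆ U).card ≤ 4 * m), h U ≤
          ∑ U ∈ (realSet d).filter (fun U => (X ∆ U).card ≤ 4 * (m + 1)), h U := by
        refine sum_le_sum_of_subset_of_nonneg ?_ (fun U _ _ => h0 U)
        intro U hU
        simp only [mem_filter] at hU ⊢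
        refine ⟨hU.1, ?_⟩
        have := (card_le_card (symmDiff_triangle X Y U)).trans (card_union_le _ _)
        have := hs.card_le
        omega
      set A := ∑ U ∈ (realSet d).filter (fun U => (X ∆ U).card ≤ 4 * (m + 1)), h U
      have h3 : (φ Z - φ Y) ^ 2 ≤ (4 : ℝ) ^ m * A :=
        (ih hY).trans (mul_le_mul_of_nonneg_left h2 (by positivity))
      have h4 : (0 : ℝ) ≤ A := le_trans (sq_nonneg _) h1
      have h5 : (φ Z - φ X) ^ 2 ≤ 2 * A + 2 * ((4 : ℝ) ^ m * A) := by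
        nlinarith [sq_nonneg ((φ Y - φ X) - (φ Z - φ Y))]
      have h6 : (1 : ℝ) ≤ 4 ^ m := one_le_pow₀ (by norm_num)
      rw [show (4 : ℝ) ^ (m + 1) = 4 * 4 ^ m by ring]
      nlinarith
  calc nearEnergy d k φ
      ≤ ∑ X ∈ realSet d, ((n * n + 1) ^ k : ℕ) *
          ((4 : ℝ) ^ k * ∑ U ∈ (realSet d).filter (fun U => (X ∆ U).card ≤ 4 * k), h U) := by
        refine sum_le_sum (fun X hX => ?_)
        refine le_trans (sum_le_card_nsmul _ _
          ((4 : ℝ) ^ k * ∑ U ∈ (realSet d).filter (fun U => (X ∆ U).card ≤ 4 * k), h U) ?_) ?_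
        · intro Y hY
          simp only [mem_filter] at hY
          exact hlink k X Y (link_of_dist k X Y (mem_realSet.mp hX) (mem_realSet.mp hY.1) hY.2)
            (mem_realSet.mp hX)
        · rw [nsmul_eq_mul]
          exact mul_le_mul_of_nonneg_right (by exact_mod_cast card_near _ X k)
            (mul_nonneg (by positivity) (sum_nonneg (fun U _ => h0 U)))
    _ = ((n * n + 1) ^ k : ℕ) * (4 : ℝ) ^ k *
          ∑ X ∈ realSet d, ∑ U ∈ (realSet d).filter (fun U => (X ∆ U).card ≤ 4 * k), h U := by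
        rw [mul_sum]
        exact sum_congr rfl (fun X _ => by ring)
    _ ≤ ((n * n + 1) ^ k : ℕ) * (4 : ℝ) ^ k *
          (((n * n + 1) ^ (4 * k) : ℕ) * ∑ U ∈ realSet d, h U) :=
        mul_le_mul_of_nonneg_left (sum_near_le (4 * k) h h0) (by positivity)
    _ = _ := by simp only [switchEnergy, h]; ring

theorem chain_bound {α : Type*} [DecidableEq α] (S : Finset α) (r : α → α → Prop) {a b : α}
    (hr : ∀ x y, r x y → x ∈ S ∧ y ∈ S) (h : Relation.ReflTransGen r a b) (φ : α → ℝ)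
    [DecidableRel r] :
    (φ b - φ a) ^ 2 ≤ (S.card : ℝ) ^ 4 *
      ∑ x ∈ S, ∑ y ∈ S, if r x y then (φ y - φ x) ^ 2 else 0 := by
  set K := ∑ x ∈ S, ∑ y ∈ S, if r x y then |φ y - φ x| else 0 with hK
  have hK0 : 0 ≤ K := sum_nonneg fun x _ => sum_nonneg fun y _ => by split_ifs <;> positivity
  let Γ : SimpleGraph α := SimpleGraph.fromRel r
  have hreach : Γ.Reachable a b := by
    clear_value K
    induction h with
    | refl => exact SimpleGraph.Reachable.refl _
    | @tail c e _ hce ih =>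
      by_cases he : c = e
      · exact he ▸ ih
      · exact ih.trans (SimpleGraph.Adj.reachable ((SimpleGraph.fromRel_adj r c e).mpr ⟨he, Or.inl hce⟩))
  obtain ⟨p, hp⟩ := hreach.exists_isPath
  have hsmall : ∀ x y, Γ.Adj x y → |φ y - φ x| ≤ K := by
    intro x y hxy
    have key : ∀ x y, r x y → |φ y - φ x| ≤ K := by
      intro x y hxy
      obtain ⟨hx, hy⟩ := hr x y hxy
      refine le_trans ?_ (single_le_sum
        (fun x _ => sum_nonneg fun y _ => by split_ifs <;> positivity) hx)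
      have hh := single_le_sum (f := fun y => if r x y then |φ y - φ x| else 0)
        (fun y _ => by split_ifs <;> positivity) hy
      rwa [if_pos hxy] at hh
    rcases ((SimpleGraph.fromRel_adj r x y).mp hxy).2 with h | h
    · exact key x y h
    · rw [abs_sub_comm]; exact key y x h
  have hlen : ∀ {u w : α} (q : Γ.Walk u w), |φ w - φ u| ≤ q.length * K := by
    intro u w q
    induction q with
    | nil => simp
    | @cons u v w hadj q ih =>
      rw [SimpleGraph.Walk.length_cons, Nat.cast_succ, add_mul, one_mul]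
      calc |φ w - φ u| ≤ |φ w - φ v| + |φ v - φ u| := abs_sub_le _ _ _
        _ ≤ _ := add_le_add ih (hsmall u v hadj)
  have hlenS : p.length ≤ S.card := by
    by_cases hz : p.length = 0
    · omega
    have hall : ∀ x ∈ p.support, x ∈ S := by
      intro x hx
      obtain ⟨y, hy⟩ : ∃ y, Γ.Adj x y := by
        have hgen : ∀ {u w : α} (q : Γ.Walk u w), ¬ q.Nil → x ∈ q.support → ∃ y, Γ.Adj x y := by
          intro u w q
          induction q with
          | nil => intro hq; simp at hq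
          | @cons u v w hadj q ih =>
            intro _ hx
            rw [SimpleGraph.Walk.support_cons, List.mem_cons] at hx
            rcases hx with rfl | hx
            · exact ⟨v, hadj⟩
            · by_cases hq : q.Nil
              · rw [SimpleGraph.Walk.nil_iff_support_eq] at hq
                rw [hq, List.mem_singleton] at hx
                exact ⟨u, hx ▸ hadj.symm⟩
              · exact ih hq hx
        exact hgen p (fun hn => hz (SimpleGraph.Walk.length_eq_zero_iff.mpr hn)) hx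
      rcases ((SimpleGraph.fromRel_adj r x y).mp hy).2 with h | h
      · exact (hr _ _ h).1
      · exact (hr _ _ h).2
    have := hp.support_nodup
    have hc := card_le_card (show p.support.toFinset ⊆ S from fun x hx => hall x (List.mem_toFinset.mp hx))
    rw [List.toFinset_card_of_nodup hp.support_nodup, SimpleGraph.Walk.length_support] at hc
    omega
  have habs : |φ b - φ a| ≤ S.card * K :=
    (hlen p).trans (mul_le_mul_of_nonneg_right (by exact_mod_cast hlenS) hK0)
  have hsq : (φ b - φ a) ^ 2 ≤ (S.card : ℝ) ^ 2 * K ^ 2 := by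
    rw [← sq_abs, ← mul_pow]
    exact pow_le_pow_left₀ (abs_nonneg _) habs 2
  have hK2 : K ^ 2 ≤ (S.card : ℝ) ^ 2 * ∑ x ∈ S, ∑ y ∈ S, if r x y then (φ y - φ x) ^ 2 else 0 := by
    rw [hK, ← sum_product', ← sum_product']
    refine (sq_sum_le_card_mul_sum_sq).trans (le_of_eq ?_)
    rw [card_product, Nat.cast_mul, ← sq]
    congr 1
    refine sum_congr rfl (fun q _ => ?_)
    split_ifs <;> simp [sq_abs]
  calc (φ b - φ a) ^ 2 ≤ _ := hsq
    _ ≤ (S.card : ℝ) ^ 2 * ((S.card : ℝ) ^ 2 * _) := mul_le_mul_of_nonneg_left hK2 (by positivity)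
    _ = _ := by ring

open Classical in
/-- A nearby realisation, and `X` itself if it is one. -/
noncomputable def fixUp (d : Fin n → ℕ) (k : ℕ) (X : Finset (Sym2 (Fin n))) :
    Finset (Sym2 (Fin n)) :=
  if IsReal d X then X else if h : Fixable d k X then X ∆ h.choose else X

theorem fixUp_spec {d : Fin n → ℕ} {k : ℕ} {X : Finset (Sym2 (Fin n))} (h : Fixable d k X) :
    IsReal d (fixUp d k X) ∧ (X ∆ fixUp d k X).card ≤ k := by
  unfold fixUp
  split_ifs with hX
  · exact ⟨hX, by simp⟩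
  · exact ⟨h.choose_spec.2, by rw [symmDiff_symmDiff_cancel_left]; exact h.choose_spec.1⟩

theorem fixUp_of_real {d : Fin n → ℕ} {k : ℕ} {X : Finset (Sym2 (Fin n))} (h : IsReal d X) :
    fixUp d k X = X := by simp [fixUp, h]

open Classical in
/-- Admissible candidates. -/
noncomputable def validSet (d : Fin n → ℕ) (G H : Finset (Sym2 (Fin n)))
    (ψ : Equiv.Perm (Fin n × Fin n)) : Finset (Finset (Sym2 (Fin n))) :=
  (candidates ψ (G ∆ H)).filter (Valid d G H ψ (candidates ψ (G ∆ H)))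

theorem mem_validSet {d : Fin n → ℕ} {G H F : Finset (Sym2 (Fin n))}
    {ψ : Equiv.Perm (Fin n × Fin n)} :
    F ∈ validSet d G H ψ ↔ Valid d G H ψ (candidates ψ (G ∆ H)) F := by
  classical
  simp only [validSet, mem_filter, and_iff_right_iff_imp]
  exact fun h => h.1

theorem card_validSet (d : Fin n → ℕ) (G H : Finset (Sym2 (Fin n)))
    (ψ : Equiv.Perm (Fin n × Fin n)) : (validSet d G H ψ).card ≤ (n * n + 1) ^ 3 :=
  le_trans (by classical exact card_le_card (filter_subset _ _)) (card_candidates ψ (G ∆ H))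

/-- Weighted near differences along the admissible sets of one pairing. -/
noncomputable def pathCost (d : Fin n → ℕ) (φ : Finset (Sym2 (Fin n)) → ℝ)
    (X : Finset (Sym2 (Fin n))) : ℝ :=
  ∑ Y ∈ (realSet d).filter (fun Y => (X ∆ Y).card ≤ 16), (φ Y - φ X) ^ 2

theorem pathCost_nonneg (d : Fin n → ℕ) (φ : Finset (Sym2 (Fin n)) → ℝ)
    (X : Finset (Sym2 (Fin n))) : 0 ≤ pathCost d φ X := sum_nonneg fun _ _ => sq_nonneg _

theorem path_le {d : Fin n → ℕ} {G H : Finset (Sym2 (Fin n))}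
    {ψ : Equiv.Perm (Fin n × Fin n)} (c : Ctx d G H ψ) (φ : Finset (Sym2 (Fin n)) → ℝ) :
    (φ H - φ G) ^ 2 ≤ (((n * n + 1) ^ 15 : ℕ) : ℝ) *
      ∑ F ∈ validSet d G H ψ, pathCost d φ (fixUp d 4 (G ∆ F)) := by
  classical
  set S := validSet d G H ψ with hS
  set r := Step d G H ψ (candidates ψ (G ∆ H))
  set χ : Finset (Sym2 (Fin n)) → ℝ := fun F => φ (fixUp d 4 (G ∆ F))
  have h := chain_bound S r (fun x y hxy => ⟨mem_validSet.mpr hxy.1, mem_validSet.mpr hxy.2.1⟩)
    c.connect χ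
  have e0 : χ ∅ = φ G := by
    simp only [χ, ← bot_eq_empty, symmDiff_bot]; rw [fixUp_of_real c.realG]
  have e1 : χ (G ∆ H) = φ H := by
    simp only [χ, symmDiff_symmDiff_cancel_left]; rw [fixUp_of_real c.realH]
  rw [e0, e1] at h
  refine h.trans ?_
  have hterm : ∀ x ∈ S, ∀ y ∈ S, (if r x y then (χ y - χ x) ^ 2 else 0) ≤
      pathCost d φ (fixUp d 4 (G ∆ x)) := by
    intro x _ y _
    split_ifs with hxy
    · obtain ⟨⟨-, -, fx, -⟩, ⟨-, -, fy, -⟩, hc⟩ := hxy
      obtain ⟨rx, dx⟩ := fixUp_spec fx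
      obtain ⟨ry, dy⟩ := fixUp_spec fy
      refine single_le_sum (f := fun Y => (φ Y - φ (fixUp d 4 (G ∆ x))) ^ 2)
        (fun _ _ => sq_nonneg _) (mem_filter.mpr ⟨mem_realSet.mpr ry, ?_⟩)
      have t1 := (card_le_card (symmDiff_triangle (fixUp d 4 (G ∆ x)) (G ∆ x) (fixUp d 4 (G ∆ y)))).trans
        (card_union_le _ _)
      have t2 := (card_le_card (symmDiff_triangle (G ∆ x) (G ∆ y) (fixUp d 4 (G ∆ y)))).trans
        (card_union_le _ _)
      have t3 : (G ∆ x) ∆ (G ∆ y) = x ∆ y := by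
        rw [symmDiff_symmDiff_symmDiff_comm, symmDiff_self, bot_symmDiff]
      rw [t3] at t2
      rw [symmDiff_comm (fixUp d 4 (G ∆ x)) (G ∆ x)] at t1
      omega
    · exact pathCost_nonneg _ _ _
  have hB : (S.card : ℝ) ≤ (((n * n + 1) ^ 3 : ℕ) : ℝ) := by exact_mod_cast card_validSet d G H ψ
  calc (S.card : ℝ) ^ 4 * ∑ x ∈ S, ∑ y ∈ S, (if r x y then (χ y - χ x) ^ 2 else 0)
      ≤ (S.card : ℝ) ^ 4 * ∑ x ∈ S, (S.card : ℝ) * pathCost d φ (fixUp d 4 (G ∆ x)) := by
        refine mul_le_mul_of_nonneg_left (sum_le_sum fun x hx => ?_) (by positivity)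
        have := sum_le_card_nsmul S _ _ (hterm x hx)
        rwa [nsmul_eq_mul] at this
    _ = (S.card : ℝ) ^ 5 * ∑ x ∈ S, pathCost d φ (fixUp d 4 (G ∆ x)) := by
        rw [← mul_sum]; ring
    _ ≤ _ := by
        refine mul_le_mul_of_nonneg_right ?_ (sum_nonneg fun x _ => pathCost_nonneg _ _ _)
        refine (pow_le_pow_left₀ (by positivity) hB 5).trans (le_of_eq ?_)
        push_cast; ring

/-- What the encoding of a state keeps besides the pairing. -/
noncomputable def codes (d : Fin n → ℕ) : Finset (Finset (Sym2 (Fin n)) × Finset (Sym2 (Fin n)) ×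
    Finset (Sym2 (Fin n)) × Finset (Fin n × Fin n) × (ℕ × (Fin n × Fin n) × ℕ)) :=
  smallSets _ 4 ×ˢ (realSet d ×ˢ (smallSets _ 2 ×ˢ (smallSets _ 2 ×ˢ paramRange n)))

theorem card_codes (d : Fin n → ℕ) :
    (codes d).card ≤ (n * n + 1) ^ 11 * (realSet d).card := by
  have hp : (paramRange n).card ≤ (n * n + 1) ^ 3 := by
    simp only [paramRange, card_product, card_range, card_univ, Fintype.card_prod, Fintype.card_fin]
    calc (n * n + 1) * (n * n * (n * n + 1)) ≤ (n * n + 1) * ((n * n + 1) * (n * n + 1)) :=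
          Nat.mul_le_mul_left _ (Nat.mul_le_mul_right _ (Nat.le_succ _))
      _ = (n * n + 1) ^ 3 := by ring
  simp only [codes, card_product]
  calc (smallSets (Sym2 (Fin n)) 4).card * ((realSet d).card * ((smallSets (Sym2 (Fin n)) 2).card *
        ((smallSets (Fin n × Fin n) 2).card * (paramRange n).card)))
      ≤ (n * n + 1) ^ 4 * ((realSet d).card * ((n * n + 1) ^ 2 *
          ((n * n + 1) ^ 2 * (n * n + 1) ^ 3))) := by
        gcongr
        · exact card_small_edges n 4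
        · exact card_small_edges n 2
        · exact card_small_darts n 2
    _ = _ := by ring

/-- The weight sent through one realisation is at most polynomial times their number. -/
theorem load_le {d : Fin n → ℕ} (X : Finset (Sym2 (Fin n))) :
    ∑ G ∈ realSet d, ∑ H ∈ realSet d, ∑ ψ ∈ pairings (G ∆ H) (dartsIn G),
        ∑ _F ∈ (validSet d G H ψ).filter (fun F => fixUp d 4 (G ∆ F) = X),
          ((pairings (G ∆ H) (dartsIn G)).card : ℝ)⁻¹ ≤
      (((n * n + 1) ^ 11 : ℕ) : ℝ) * (realSet d).card := by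
  classical
  set Q := ((realSet d ×ˢ realSet d).sigma fun p => pairings (p.1 ∆ p.2) (dartsIn p.1)).sigma
    (fun q => (validSet d q.1.1 q.1.2 q.2).filter (fun F => fixUp d 4 (q.1.1 ∆ F) = X)) with hQ
  rw [show ∑ G ∈ realSet d, ∑ H ∈ realSet d, ∑ ψ ∈ pairings (G ∆ H) (dartsIn G),
      ∑ _F ∈ (validSet d G H ψ).filter (fun F => fixUp d 4 (G ∆ F) = X),
        ((pairings (G ∆ H) (dartsIn G)).card : ℝ)⁻¹ =
      ∑ q ∈ Q, ((pairings (q.1.1.1 ∆ q.1.1.2) (dartsIn q.1.1.1)).card : ℝ)⁻¹ by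
    rw [hQ, sum_sigma, sum_sigma, sum_product]]
  let U := (codes d).sigma
    (fun τ => pairings ((X ∆ τ.1) ∆ (τ.2.1 ∆ τ.2.2.1)) (dartsIn (X ∆ τ.1) ∆ τ.2.2.2.1))
  let dec : ((_ : Finset (Sym2 (Fin n)) × Finset (Sym2 (Fin n)) × Finset (Sym2 (Fin n)) ×
      Finset (Fin n × Fin n) × (ℕ × (Fin n × Fin n) × ℕ)) × Equiv.Perm (Fin n × Fin n)) →
      ((_ : (_ : Finset (Sym2 (Fin n)) × Finset (Sym2 (Fin n))) ×
        Equiv.Perm (Fin n × Fin n)) × Finset (Sym2 (Fin n))) := fun t =>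
    let F := param t.2 ((X ∆ t.1.1) ∆ (t.1.2.1 ∆ t.1.2.2.1)) t.1.2.2.2.2
    ⟨⟨((X ∆ t.1.1) ∆ F, (t.1.2.1 ∆ t.1.2.2.1) ∆ F), t.2⟩, F⟩
  have hcover : Q ⊆ (U.filter (fun t => dec t ∈ Q)).image dec := by
    rintro ⟨⟨⟨G, H⟩, ψ⟩, F⟩ hq
    have hq' := hq
    simp only [hQ, mem_sigma, mem_product, mem_filter] at hq'
    obtain ⟨⟨⟨hG, hH⟩, hψ⟩, hF, hX⟩ := hq'
    obtain ⟨hFS, hdef, hfix4, hfix2⟩ := mem_validSet.mp hF
    obtain ⟨q, hqr, hqF⟩ := mem_image.mp hFS
    obtain ⟨-, h4⟩ := fixUp_spec hfix4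
    obtain ⟨hrL, h2⟩ := fixUp_spec hfix2
    rw [hX] at h4
    set L := fixUp d 2 (H ∆ F)
    have e1 : X ∆ (X ∆ (G ∆ F)) = G ∆ F := symmDiff_symmDiff_cancel_left _ _
    have e2 : L ∆ ((H ∆ F) ∆ L) = H ∆ F := by
      rw [symmDiff_comm (H ∆ F) L, symmDiff_symmDiff_cancel_left]
    have e3 : (G ∆ F) ∆ (H ∆ F) = G ∆ H := by
      rw [symmDiff_symmDiff_symmDiff_comm, symmDiff_self, symmDiff_bot]
    have hdec : dec ⟨(X ∆ (G ∆ F), L, (H ∆ F) ∆ L, defects ψ F, q), ψ⟩ = ⟨⟨(G, H), ψ⟩, F⟩ := by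
      simp only [dec, e1, e2, e3, hqF, symmDiff_symmDiff_cancel_right]
    refine mem_image.mpr ⟨_, mem_filter.mpr ⟨?_, hdec.symm ▸ hq⟩, hdec⟩
    simp only [U, mem_sigma, codes, mem_product, smallSets, mem_filter, mem_univ, true_and]
    refine ⟨⟨?_, mem_realSet.mpr hrL, h2, hdef, hqr⟩, ?_⟩
    · rw [symmDiff_comm]; exact h4
    · rw [e1, e2, e3]
      exact mem_pairings.mpr (pairing_toggle (mem_pairings.mp hψ) F)
  have hw : ∀ t ∈ U.filter (fun t => dec t ∈ Q),
      ((pairings ((dec t).1.1.1 ∆ (dec t).1.1.2) (dartsIn (dec t).1.1.1)).card : ℝ)⁻¹ =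
      ((pairings ((X ∆ t.1.1) ∆ (t.1.2.1 ∆ t.1.2.2.1))
        (dartsIn (X ∆ t.1.1) ∆ t.1.2.2.2.1)).card : ℝ)⁻¹ := by
    intro t ht
    obtain ⟨htU, htQ⟩ := mem_filter.mp ht
    have h1 := (mem_sigma.mp htU).2
    have h2 := (mem_sigma.mp (mem_sigma.mp htQ).1).2
    simp only [dec] at h2 ⊢
    rw [symmDiff_symmDiff_symmDiff_comm, symmDiff_self, symmDiff_bot] at h2 ⊢
    rw [card_pairings_eq (mem_pairings.mp h2) (mem_pairings.mp h1)]
  calc ∑ q ∈ Q, ((pairings (q.1.1.1 ∆ q.1.1.2) (dartsIn q.1.1.1)).card : ℝ)⁻¹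
      ≤ ∑ q ∈ (U.filter (fun t => dec t ∈ Q)).image dec,
          ((pairings (q.1.1.1 ∆ q.1.1.2) (dartsIn q.1.1.1)).card : ℝ)⁻¹ :=
        sum_le_sum_of_subset_of_nonneg hcover (fun q _ _ => by positivity)
    _ ≤ ∑ t ∈ U.filter (fun t => dec t ∈ Q),
          ((pairings ((dec t).1.1.1 ∆ (dec t).1.1.2) (dartsIn (dec t).1.1.1)).card : ℝ)⁻¹ :=
        sum_image_le_of_nonneg
          (f := fun q : ((_ : (_ : Finset (Sym2 (Fin n)) × Finset (Sym2 (Fin n))) ×
            Equiv.Perm (Fin n × Fin n)) × Finset (Sym2 (Fin n))) =>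
            ((pairings (q.1.1.1 ∆ q.1.1.2) (dartsIn q.1.1.1)).card : ℝ)⁻¹)
          (fun q _ => by positivity)
    _ = ∑ t ∈ U.filter (fun t => dec t ∈ Q),
          ((pairings ((X ∆ t.1.1) ∆ (t.1.2.1 ∆ t.1.2.2.1))
            (dartsIn (X ∆ t.1.1) ∆ t.1.2.2.2.1)).card : ℝ)⁻¹ := sum_congr rfl hw
    _ ≤ ∑ t ∈ U, ((pairings ((X ∆ t.1.1) ∆ (t.1.2.1 ∆ t.1.2.2.1))
            (dartsIn (X ∆ t.1.1) ∆ t.1.2.2.2.1)).card : ℝ)⁻¹ :=
        sum_le_sum_of_subset_of_nonneg (filter_subset _ _) (fun t _ _ => by positivity)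
    _ ≤ (codes d).card := by
        rw [sum_sigma]
        refine le_trans (sum_le_card_nsmul _ _ (1 : ℝ) (fun τ _ => ?_)) (by simp)
        simp only [sum_const, nsmul_eq_mul]
        exact mul_inv_le_one
    _ ≤ _ := by exact_mod_cast card_codes d

/-- The variance is at most a polynomial times the switch energy. -/
theorem variance_le {d : Fin n → ℕ} (φ : Finset (Sym2 (Fin n)) → ℝ) :
    ∑ G ∈ realSet d, ∑ H ∈ realSet d, (φ H - φ G) ^ 2 ≤
      (((n * n + 1) ^ 106 : ℕ) : ℝ) * 4 ^ 16 * (realSet d).card * switchEnergy d φ := by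
  classical
  have h1 : ∀ G ∈ realSet d, ∀ H ∈ realSet d, (φ H - φ G) ^ 2 ≤ (((n * n + 1) ^ 15 : ℕ) : ℝ) *
      ∑ ψ ∈ pairings (G ∆ H) (dartsIn G), ∑ F ∈ validSet d G H ψ,
        ((pairings (G ∆ H) (dartsIn G)).card : ℝ)⁻¹ * pathCost d φ (fixUp d 4 (G ∆ F)) := by
    intro G hG H hH
    obtain ⟨ψ₀, hψ₀⟩ := exists_pairing (mem_realSet.mp hG) (mem_realSet.mp hH)
    have hpos : (0 : ℝ) < (pairings (G ∆ H) (dartsIn G)).card := by
      exact_mod_cast card_pos.mpr ⟨ψ₀, mem_pairings.mpr hψ₀⟩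
    simp only [← mul_sum]
    rw [← mul_assoc, mul_comm (((n * n + 1) ^ 15 : ℕ) : ℝ), mul_assoc, ← div_eq_inv_mul,
      le_div_iff₀ hpos, mul_sum, mul_comm]
    have := card_nsmul_le_sum (pairings (G ∆ H) (dartsIn G)) _ _
      (fun ψ hψ => path_le ⟨mem_realSet.mp hG, mem_realSet.mp hH, mem_pairings.mp hψ⟩ φ)
    rwa [nsmul_eq_mul] at this
  have h2 : ∑ G ∈ realSet d, ∑ H ∈ realSet d, ∑ ψ ∈ pairings (G ∆ H) (dartsIn G),
      ∑ F ∈ validSet d G H ψ,
        ((pairings (G ∆ H) (dartsIn G)).card : ℝ)⁻¹ * pathCost d φ (fixUp d 4 (G ∆ F)) ≤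
      (((n * n + 1) ^ 11 : ℕ) : ℝ) * (realSet d).card * nearEnergy d 16 φ := by
    have hmaps : ∀ G ∈ realSet d, ∀ H, ∀ ψ, ∀ F ∈ validSet d G H ψ,
        fixUp d 4 (G ∆ F) ∈ realSet d := fun G _ H ψ F hF =>
      mem_realSet.mpr (fixUp_spec (mem_validSet.mp hF).2.2.1).1
    have e : ∀ G ∈ realSet d, ∀ H, ∀ ψ,
        ∑ F ∈ validSet d G H ψ,
          ((pairings (G ∆ H) (dartsIn G)).card : ℝ)⁻¹ * pathCost d φ (fixUp d 4 (G ∆ F)) =
        ∑ X ∈ realSet d, pathCost d φ X *
          ∑ _F ∈ (validSet d G H ψ).filter (fun F => fixUp d 4 (G ∆ F) = X),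
            ((pairings (G ∆ H) (dartsIn G)).card : ℝ)⁻¹ := by
      intro G hG H ψ
      rw [← sum_fiberwise_of_maps_to (hmaps G hG H ψ)]
      refine sum_congr rfl (fun X _ => ?_)
      rw [mul_sum]
      refine sum_congr rfl (fun F hF => ?_)
      rw [(mem_filter.mp hF).2]; ring
    rw [sum_congr rfl (fun G hG => sum_congr rfl (fun H _ => sum_congr rfl (fun ψ _ => e G hG H ψ)))]
    simp only [Finset.sum_comm (t := realSet d) (s := pairings _ _)]
    rw [sum_congr rfl (fun G _ => Finset.sum_comm), Finset.sum_comm]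
    simp only [← mul_sum]
    rw [nearEnergy, mul_sum]
    refine sum_le_sum (fun X _ => ?_)
    show _ ≤ _ * pathCost d φ X
    rw [mul_comm _ (pathCost d φ X)]
    exact mul_le_mul_of_nonneg_left (load_le X) (pathCost_nonneg _ _ _)
  calc ∑ G ∈ realSet d, ∑ H ∈ realSet d, (φ H - φ G) ^ 2
      ≤ ∑ G ∈ realSet d, ∑ H ∈ realSet d, (((n * n + 1) ^ 15 : ℕ) : ℝ) *
          ∑ ψ ∈ pairings (G ∆ H) (dartsIn G), ∑ F ∈ validSet d G H ψ,
            ((pairings (G ∆ H) (dartsIn G)).card : ℝ)⁻¹ * pathCost d φ (fixUp d 4 (G ∆ F)) :=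
        sum_le_sum fun G hG => sum_le_sum fun H hH => h1 G hG H hH
    _ ≤ (((n * n + 1) ^ 15 : ℕ) : ℝ) *
          ((((n * n + 1) ^ 11 : ℕ) : ℝ) * (realSet d).card * nearEnergy d 16 φ) := by
        refine le_trans (le_of_eq ?_) (mul_le_mul_of_nonneg_left h2 (Nat.cast_nonneg _))
        rw [mul_sum]
        exact sum_congr rfl fun G _ => (mul_sum _ _ _).symm
    _ ≤ (((n * n + 1) ^ 15 : ℕ) : ℝ) * ((((n * n + 1) ^ 11 : ℕ) : ℝ) * (realSet d).card *
          (((4 : ℝ) ^ 16 * ((n * n + 1) ^ 16 : ℕ) * ((n * n + 1) ^ (4 * 16) : ℕ)) *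
            switchEnergy d φ)) := by
        gcongr
        exact nearEnergy_le 16 φ
    _ = _ := by push_cast; ring

end Vale.Agent.P335
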