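import Vale.Agent.P335.SwitchChain
import Vale.Agent.P335.Flow

/-! The chain in terms of edge sets. -/

open Finset
open scoped symmDiff

namespace Vale.Agent.P335

variable {n : ℕ}

open Classical in
/-- The edges of a graph. -/
noncomputable def edges (G : SimpleGraph (Fin n)) : Finset (Sym2 (Fin n)) :=
  univ.filter (fun e => e ∈ G.edgeSet)

theorem mem_edges {G : SimpleGraph (Fin n)} {e : Sym2 (Fin n)} :
    e ∈ edges G ↔ e ∈ G.edgeSet := by simp [edges]

theorem edges_injective : Function.Injective (edges (n := n)) := by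
  intro G H h
  apply SimpleGraph.edgeSet_inj.mp
  ext e
  rw [← mem_edges, h, mem_edges]

theorem loopless_edges (G : SimpleGraph (Fin n)) : Loopless (edges G) :=
  fun _ he => G.not_isDiag_of_mem_edgeSet (mem_edges.mp he)

theorem deg_edges (G : SimpleGraph (Fin n)) (v : Fin n) :
    deg (edges G) v = (G.neighborSet v).ncard := by
  have : G.neighborSet v = ↑(nb (edges G) v) := by
    ext u; simp [nb, mem_edges, SimpleGraph.mem_neighborSet, SimpleGraph.mem_edgeSet]
  rw [deg_eq_card_nb, this, Set.ncard_coe_finset]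

theorem edges_real {d : Fin n → ℕ} (G : Realization d) : IsReal d (edges G.1) :=
  ⟨loopless_edges _, fun v => by rw [deg_edges, G.2 v]⟩

theorem edges_fromEdgeSet {X : Finset (Sym2 (Fin n))} (hX : Loopless X) :
    edges (SimpleGraph.fromEdgeSet (X : Set (Sym2 (Fin n)))) = X := by
  ext e
  rw [mem_edges, SimpleGraph.edgeSet_fromEdgeSet]
  simp only [Set.mem_sdiff, mem_coe]
  exact ⟨fun h => h.1, fun h => ⟨h, by simpa [Sym2.diagSet] using hX e h⟩⟩

/-- Realisations as edge sets. -/
noncomputable def realEquiv (d : Fin n → ℕ) : Realization d ≃ {X // X ∈ realSet d} :=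
  Equiv.ofBijective (fun G => ⟨edges G.1, mem_realSet.mpr (edges_real G)⟩) <| by
    constructor
    · intro G H h
      exact Subtype.ext (edges_injective (congrArg Subtype.val h))
    · rintro ⟨X, hX⟩
      obtain ⟨hl, hd⟩ := mem_realSet.mp hX
      refine ⟨⟨SimpleGraph.fromEdgeSet (X : Set (Sym2 (Fin n))), fun v => ?_⟩,
        Subtype.ext (edges_fromEdgeSet hl)⟩
      have := deg_edges (SimpleGraph.fromEdgeSet (X : Set (Sym2 (Fin n)))) v
      rw [edges_fromEdgeSet hl, hd] at this
      exact_mod_cast this.symm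

theorem sum_realization {d : Fin n → ℕ} (f : Finset (Sym2 (Fin n)) → ℝ) :
    ∑ G : Realization d, f (edges G.1) = ∑ X ∈ realSet d, f X := by
  rw [← Finset.sum_coe_sort (realSet d) f]
  exact Equiv.sum_comp (realEquiv d) (fun X : {X // X ∈ realSet d} => f X.1)

theorem card_realization (d : Fin n → ℕ) :
    Fintype.card (Realization d) = (realSet d).card :=
  (Fintype.card_congr (realEquiv d)).trans (Fintype.card_coe _)

theorem mem_perfectMatchings {S : Finset (Fin n)} {F : Finset (Sym2 (Fin n))} :
    F ∈ perfectMatchings S ↔ F.card = 2 ∧ (∀ e ∈ F, ¬ e.IsDiag ∧ ∀ v ∈ e, v ∈ S) ∧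
      ∀ v ∈ S, ∃! e, e ∈ F ∧ v ∈ e := by
  classical
  simp [perfectMatchings]

theorem pair_matching {a b c e : Fin n} (hab : a ≠ b) (hac : a ≠ c) (hae : a ≠ e) (hbc : b ≠ c)
    (hbe : b ≠ e) (hce : c ≠ e) :
    ({s(a, b), s(c, e)} : Finset (Sym2 (Fin n))) ∈
      perfectMatchings ({a, b, c, e} : Finset (Fin n)) := by
  refine mem_perfectMatchings.mpr ⟨card_pair (by simp [hac, hae]), ?_, ?_⟩
  · intro x hx
    simp only [mem_insert, mem_singleton] at hx
    rcases hx with rfl | rfl <;> refine ⟨by simpa, fun v hv => ?_⟩ <;>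
      simp only [Sym2.mem_iff] at hv <;> rcases hv with rfl | rfl <;> simp
  · intro v hv
    simp only [mem_insert, mem_singleton] at hv
    rcases hv with rfl | rfl | rfl | rfl
    · exact ⟨s(v, b), by simp, fun y hy => by
        simp only [mem_insert, mem_singleton] at hy
        rcases hy with ⟨rfl | rfl, hy⟩ <;> simp_all [Sym2.mem_iff]⟩
    · exact ⟨s(a, v), by simp, fun y hy => by
        simp only [mem_insert, mem_singleton] at hy
        rcases hy with ⟨rfl | rfl, hy⟩ <;> simp_all [Sym2.mem_iff]⟩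
    · exact ⟨s(v, e), by simp, fun y hy => by
        simp only [mem_insert, mem_singleton] at hy
        rcases hy with ⟨rfl | rfl, hy⟩ <;> simp_all [Sym2.mem_iff] <;>
          rcases hy with rfl | rfl <;> contradiction⟩
    · exact ⟨s(c, v), by simp, fun y hy => by
        simp only [mem_insert, mem_singleton] at hy
        rcases hy with ⟨rfl | rfl, hy⟩ <;> simp_all [Sym2.mem_iff] <;>
          rcases hy with rfl | rfl <;> contradiction⟩

theorem card_perfectMatchings {S : Finset (Fin n)} (hS : S.card = 4) :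
    (perfectMatchings S).card = 3 := by
  classical
  obtain ⟨a, b, c, e, hab, hac, hae, hbc, hbe, hce, rfl⟩ := card_eq_four.mp hS
  have s1 : ({a, c, b, e} : Finset (Fin n)) = {a, b, c, e} := by ext x; simp; tauto
  have s2 : ({a, e, b, c} : Finset (Fin n)) = {a, b, c, e} := by ext x; simp; tauto
  have key : perfectMatchings ({a, b, c, e} : Finset (Fin n)) =
      {{s(a, b), s(c, e)}, {s(a, c), s(b, e)}, {s(a, e), s(b, c)}} := by
    ext F
    constructor
    · intro hF
      obtain ⟨h2, hin, huniq⟩ := mem_perfectMatchings.mp hF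
      obtain ⟨e1, ⟨he1, hae1⟩, hu⟩ := huniq a (by simp)
      obtain ⟨x, rfl⟩ : ∃ x, e1 = s(a, x) :=
        ⟨Sym2.Mem.other hae1, (Sym2.other_spec hae1).symm⟩
      obtain ⟨e2, he2, hne⟩ : ∃ e2 ∈ F, e2 ≠ s(a, x) :=
        exists_mem_ne (by omega) _
      have hF2 : F = {s(a, x), e2} := by
        refine (eq_of_subset_of_card_le ?_ ?_).symm
        · simp [insert_subset_iff, he1, he2]
        · rw [h2, card_pair hne.symm]
      have cover : ∀ v ∈ ({a, b, c, e} : Finset (Fin n)), v ≠ a → v ≠ x → v ∈ e2 := by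
        intro v hv ha hx
        obtain ⟨g, ⟨hg, hvg⟩, -⟩ := huniq v hv
        rw [hF2, mem_insert, mem_singleton] at hg
        rcases hg with rfl | rfl
        · simp [Sym2.mem_iff, ha, hx] at hvg
        · exact hvg
      have hax : a ≠ x := fun h => (hin _ he1).1 (by simp [h])
      have hxS := (hin _ he1).2 x (Sym2.mem_mk_right a x)
      simp only [mem_insert, mem_singleton] at hxS ⊢
      rcases hxS with rfl | rfl | rfl | rfl
      · exact absurd rfl hax
      · left
        rw [hF2, (Sym2.mem_and_mem_iff hce).mp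
          ⟨cover c (by simp) hac.symm hbc.symm, cover e (by simp) hae.symm hbe.symm⟩]
      · right; left
        rw [hF2, (Sym2.mem_and_mem_iff hbe).mp
          ⟨cover b (by simp) hab.symm hbc, cover e (by simp) hae.symm hce.symm⟩]
      · right; right
        rw [hF2, (Sym2.mem_and_mem_iff hbc).mp
          ⟨cover b (by simp) hab.symm hbe, cover c (by simp) hac.symm hce⟩]
    · intro hF
      simp only [mem_insert, mem_singleton] at hF
      rcases hF with rfl | rfl | rfl
      · exact pair_matching hab hac hae hbc hbe hce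
      · rw [← s1]; exact pair_matching hac hab hae hbc.symm hce hbe
      · rw [← s2]; exact pair_matching hae hab hac hbe.symm hce.symm hbc
  rw [key, card_eq_three]
  refine ⟨_, _, _, ?_, ?_, ?_, rfl⟩
  all_goals
    intro h
    first
      | (have := h ▸ mem_insert_self (s(a, b)) ({s(c, e)} : Finset (Sym2 (Fin n)))
         simp [hab, hac, hae, hbc, hbe, hce] at this)
      | (have := h ▸ mem_insert_self (s(a, c)) ({s(b, e)} : Finset (Sym2 (Fin n)))
         simp [hab, hac, hae, hbc, hbe, hce] at this)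

theorem sum_inc_matching {S : Finset (Fin n)} {F : Finset (Sym2 (Fin n))}
    (hF : F ∈ perfectMatchings S) (v : Fin n) :
    ∑ e ∈ F, inc v e = if v ∈ S then 1 else 0 := by
  classical
  obtain ⟨-, hin, huniq⟩ := mem_perfectMatchings.mp hF
  simp only [inc]
  rw [sum_boole]
  split_ifs with hv
  · obtain ⟨e, he, hu⟩ := huniq v hv
    have : F.filter (fun e => v ∈ e) = {e} := by
      ext x
      simp only [mem_filter, mem_singleton]
      exact ⟨hu x, fun h => h ▸ he⟩
    simp [this]
  · have : F.filter (fun e => v ∈ e) = ∅ :=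
      filter_eq_empty_iff.mpr (fun e he h => hv ((hin e he).2 v h))
    simp [this]

/-- The switch on edge sets. -/
def switchEdges (X : Finset (Sym2 (Fin n)))
    (p : Finset (Sym2 (Fin n)) × Finset (Sym2 (Fin n))) : Finset (Sym2 (Fin n)) :=
  if p.1 ⊆ X ∧ Disjoint p.2 X then X ∆ (p.1 ∪ p.2) else X

theorem edges_switchGraph (G : SimpleGraph (Fin n))
    {p : Finset (Sym2 (Fin n)) × Finset (Sym2 (Fin n))} (hp : Loopless p.2) :
    edges (switchGraph G p) = switchEdges (edges G) p := by
  classical
  have hc : ((∀ e ∈ p.1, e ∈ G.edgeSet) ∧ (∀ e ∈ p.2, e ∉ G.edgeSet)) ↔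
      (p.1 ⊆ edges G ∧ Disjoint p.2 (edges G)) := by
    simp [subset_iff, disjoint_left, mem_edges]
  unfold switchGraph switchEdges
  by_cases h : (∀ e ∈ p.1, e ∈ G.edgeSet) ∧ (∀ e ∈ p.2, e ∉ G.edgeSet)
  · rw [if_pos h, if_pos (hc.mp h)]
    ext e
    simp only [mem_edges, SimpleGraph.edgeSet_sup, SimpleGraph.edgeSet_deleteEdges,
      SimpleGraph.edgeSet_fromEdgeSet, Set.mem_union, Set.mem_sdiff, mem_coe, mem_symmDiff,
      mem_union]
    have h1 := h.1 e
    have h2 := h.2 e
    have h3 : e ∈ p.2 → e ∉ Sym2.diagSet (α := Fin n) := fun he => by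
      simpa [Sym2.diagSet] using hp e he
    tauto
  · rw [if_neg h, if_neg (fun h' => h (hc.mpr h'))]

theorem switchEdges_real {d : Fin n → ℕ} {X : Finset (Sym2 (Fin n))} (hX : IsReal d X)
    {S : Finset (Fin n)} {p : Finset (Sym2 (Fin n)) × Finset (Sym2 (Fin n))}
    (hp : p ∈ (perfectMatchings S).offDiag) : IsReal d (switchEdges X p) := by
  obtain ⟨h1, h2, -⟩ := mem_offDiag.mp hp
  unfold switchEdges
  split_ifs with h
  · refine ⟨hX.1.toggle ?_, fun v => ?_⟩
    · intro e he
      rcases mem_union.mp he with he | he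
      · exact ((mem_perfectMatchings.mp h1).2.1 e he).1
      · exact ((mem_perfectMatchings.mp h2).2.1 e he).1
    · rw [deg_symmDiff, hX.2 v, sum_union (disjoint_left.mpr fun e he he' =>
        disjoint_left.mp h.2 he' (h.1 he))]
      rw [sum_congr rfl (fun e he => show (if e ∈ X then (-1 : ℤ) else 1) * inc v e = -inc v e by
          rw [if_pos (h.1 he)]; ring),
        sum_congr rfl (fun e he => show (if e ∈ X then (-1 : ℤ) else 1) * inc v e = inc v e by
          rw [if_neg (disjoint_left.mp h.2 he)]; ring),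
        sum_neg_distrib, sum_inc_matching h1, sum_inc_matching h2]
      ring
  · exact hX

theorem switchEdges_swap {X : Finset (Sym2 (Fin n))}
    {p : Finset (Sym2 (Fin n)) × Finset (Sym2 (Fin n))} (hne : switchEdges X p ≠ X) :
    switchEdges (switchEdges X p) p.swap = X := by
  have h : p.1 ⊆ X ∧ Disjoint p.2 X := by
    by_contra h
    exact hne (by simp [switchEdges, h])
  have h' : p.2 ⊆ X ∆ (p.1 ∪ p.2) ∧ Disjoint p.1 (X ∆ (p.1 ∪ p.2)) := by
    constructor
    · intro e he
      simp [mem_symmDiff, disjoint_left.mp h.2 he, he]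
    · rw [disjoint_left]
      intro e he
      simp [mem_symmDiff, h.1 he, he]
  rw [show switchEdges X p = X ∆ (p.1 ∪ p.2) by simp [switchEdges, h]]
  simp only [switchEdges, Prod.swap, h', and_self, if_true]
  rw [union_comm p.2 p.1, symmDiff_symmDiff_cancel_right]

theorem loopless_snd {S : Finset (Fin n)} {p : Finset (Sym2 (Fin n)) × Finset (Sym2 (Fin n))}
    (hp : p ∈ (perfectMatchings S).offDiag) : Loopless p.2 :=
  fun e he => ((mem_perfectMatchings.mp (mem_offDiag.mp hp).2.1).2.1 e he).1

open Classical in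
theorem switchProb_eq (G H : SimpleGraph (Fin n)) :
    switchProb G H = ∑ S ∈ (univ : Finset (Fin n)).powersetCard 4, (1 / (Nat.choose n 4 : ℝ)) *
      ∑ p ∈ (perfectMatchings S).offDiag,
        (1 / 6 : ℝ) * if switchEdges (edges G) p = edges H then 1 else 0 := by
  unfold switchProb
  refine sum_congr rfl (fun S _ => ?_)
  congr 1
  refine sum_congr rfl (fun p hp => ?_)
  rw [← edges_switchGraph G (loopless_snd hp)]
  congr 1
  exact if_congr edges_injective.eq_iff.symm rfl rfl

theorem switchProb_nonneg (G H : SimpleGraph (Fin n)) : 0 ≤ switchProb G H :=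
  sum_nonneg fun S _ => mul_nonneg (by positivity)
    (sum_nonneg fun p _ => mul_nonneg (by norm_num) (by split_ifs <;> norm_num))

theorem switchProb_symm {d : Fin n → ℕ} (G H : Realization d) :
    switchProb G.1 H.1 = switchProb H.1 G.1 := by
  classical
  by_cases hGH : G = H
  · rw [hGH]
  have hne : edges G.1 ≠ edges H.1 := fun h => hGH (Subtype.ext (edges_injective h))
  rw [switchProb_eq, switchProb_eq]
  refine sum_congr rfl (fun S _ => ?_)
  congr 1
  refine sum_nbij' Prod.swap Prod.swap ?_ ?_ (fun p _ => Prod.swap_swap p)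
    (fun p _ => Prod.swap_swap p) ?_
  · intro p hp; simp at hp ⊢; exact ⟨hp.2.1, hp.1, Ne.symm hp.2.2⟩
  · intro p hp; simp at hp ⊢; exact ⟨hp.2.1, hp.1, Ne.symm hp.2.2⟩
  · intro p _
    congr 1
    refine if_congr ⟨fun h => ?_, fun h => ?_⟩ rfl rfl
    · rw [← h]; exact switchEdges_swap (by rw [h]; exact hne.symm)
    · rw [← h]
      have := switchEdges_swap (X := edges H.1) (p := p.swap) (by rw [h]; exact hne)
      rwa [Prod.swap_swap] at this

theorem switchProb_sum {d : Fin n → ℕ} (hn : 4 ≤ n) (G : Realization d) :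
    ∑ H : Realization d, switchProb G.1 H.1 = 1 := by
  classical
  simp only [switchProb_eq]
  rw [sum_comm]
  have hC : (Nat.choose n 4 : ℝ) ≠ 0 := by exact_mod_cast (Nat.choose_pos hn).ne'
  have hrow : ∀ S ∈ (univ : Finset (Fin n)).powersetCard 4,
      ∑ H : Realization d, (1 / (Nat.choose n 4 : ℝ)) * ∑ p ∈ (perfectMatchings S).offDiag,
        (1 / 6 : ℝ) * (if switchEdges (edges G.1) p = edges H.1 then 1 else 0) =
      1 / (Nat.choose n 4 : ℝ) := by
    intro S hS
    rw [← mul_sum, sum_comm]
    have : ∀ p ∈ (perfectMatchings S).offDiag, ∑ H : Realization d,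
        (1 / 6 : ℝ) * (if switchEdges (edges G.1) p = edges H.1 then 1 else 0) = 1 / 6 := by
      intro p hp
      rw [sum_realization (fun X => (1 / 6 : ℝ) *
        (if switchEdges (edges G.1) p = X then 1 else 0)), ← mul_sum, sum_ite_eq,
        if_pos (mem_realSet.mpr (switchEdges_real (edges_real G) hp)), mul_one]
    rw [sum_congr rfl this, sum_const, offDiag_card,
      card_perfectMatchings (mem_powersetCard.mp hS).2]
    norm_num
  rw [sum_congr rfl hrow, sum_const, card_powersetCard, card_univ, Fintype.card_fin, nsmul_eq_mul]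
  field_simp

theorem switchProb_lower {d : Fin n → ℕ} (hn : 4 ≤ n) (G H : Realization d)
    (h : IsSwitch (edges G.1) (edges H.1)) : 1 / (6 * (n : ℝ) ^ 4) ≤ switchProb G.1 H.1 := by
  classical
  obtain ⟨a, b, c, e, hab, hac, hae, hbc, hbe, hce, i1, i2, o1, o2, hY⟩ := h
  rw [switchProb_eq]
  set S : Finset (Fin n) := {a, b, c, e} with hS
  have hS4 : S ∈ (univ : Finset (Fin n)).powersetCard 4 :=
    mem_powersetCard.mpr ⟨subset_univ _, card_eq_four.mpr ⟨a, b, c, e, hab, hac, hae, hbc, hbe, hce, rfl⟩⟩
  refine le_trans ?_ (single_le_sum (fun S _ => mul_nonneg (by positivity)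
    (sum_nonneg fun p _ => mul_nonneg (by norm_num) (by split_ifs <;> norm_num))) hS4)
  set p : Finset (Sym2 (Fin n)) × Finset (Sym2 (Fin n)) := ({s(a, b), s(c, e)}, {s(a, c), s(b, e)})
  have hp : p ∈ (perfectMatchings S).offDiag := by
    refine mem_offDiag.mpr ⟨pair_matching hab hac hae hbc hbe hce, ?_, ?_⟩
    · rw [hS, show ({a, b, c, e} : Finset (Fin n)) = {a, c, b, e} by ext x; simp; tauto]
      exact pair_matching hac hab hae hbc.symm hce hbe
    · intro he
      have he' : ({s(a, b), s(c, e)} : Finset (Sym2 (Fin n))) = {s(a, c), s(b, e)} := he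
      have : s(a, b) ∈ ({s(a, c), s(b, e)} : Finset (Sym2 (Fin n))) := he' ▸ mem_insert_self _ _
      simp [hab, hbc, hae, hac] at this
  have hsw : switchEdges (edges G.1) p = edges H.1 := by
    rw [hY]
    unfold switchEdges
    rw [if_pos]
    · congr 1
      ext x; simp [p]; tauto
    · simp [p, insert_subset_iff, i1, i2, o1, o2]
  have hin := single_le_sum (f := fun p => (1 / 6 : ℝ) *
    if switchEdges (edges G.1) p = edges H.1 then 1 else 0)
    (fun p _ => mul_nonneg (by norm_num) (by split_ifs <;> norm_num)) hp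
  simp only [hsw, if_true, mul_one] at hin
  refine le_trans ?_ (mul_le_mul_of_nonneg_left hin (by positivity))
  have hCpos : (0 : ℝ) < Nat.choose n 4 := by exact_mod_cast Nat.choose_pos hn
  have hC : (Nat.choose n 4 : ℝ) ≤ (n : ℝ) ^ 4 := by exact_mod_cast Nat.choose_le_pow n 4
  rw [div_mul_div_comm, one_mul, mul_comm (Nat.choose n 4 : ℝ) 6]
  exact one_div_le_one_div_of_le (by positivity) (by linarith)

end Vale.Agent.P335
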