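import Mathlib.Data.ZMod.Basic
import Mathlib.Algebra.BigOperators.Group.Finset.Piecewise
import Mathlib.Logic.Relation
import Mathlib.Tactic

/-! Two climbers: the boundary of a region of a rectangle joins the two corners. -/

open Finset

namespace Vale.Agent.P335

variable (a b : ℕ) (T : ℕ → ℕ → Prop)

/-- A point of the region next to a point outside it. -/
def Good (p : ℕ × ℕ) : Prop :=
  p.1 ≤ a ∧ p.2 ≤ b ∧ T p.1 p.2 ∧ ∃ q : ℕ × ℕ, q.1 ≤ a ∧ q.2 ≤ b ∧ ¬ T q.1 q.2 ∧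
    ((q.1 = p.1 ∧ (q.2 = p.2 + 1 ∨ p.2 = q.2 + 1)) ∨
      (q.2 = p.2 ∧ (q.1 = p.1 + 1 ∨ p.1 = q.1 + 1)))

/-- Boundary points at distance at most one in each coordinate. -/
def Near (p q : ℕ × ℕ) : Prop :=
  Good a b T p ∧ Good a b T q ∧ p.1 ≤ q.1 + 1 ∧ q.1 ≤ p.1 + 1 ∧ p.2 ≤ q.2 + 1 ∧ q.2 ≤ p.2 + 1

open Classical in
theorem parity_square (k t00 t10 t01 t11 : Prop) :
    ((if k ∧ ¬ (t01 ↔ t11) then (1 : ZMod 2) else 0) - (if k ∧ ¬ (t00 ↔ t10) then 1 else 0)) +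
      ((if k ∧ ¬ (t10 ↔ t11) then 1 else 0) - (if k ∧ ¬ (t00 ↔ t01) then 1 else 0)) = 0 := by
  have two : (1 : ZMod 2) + 1 = 0 := by decide
  rw [sub_eq_add_neg, sub_eq_add_neg, ZMod.neg_eq_self_mod_two, ZMod.neg_eq_self_mod_two]
  by_cases k <;> by_cases t00 <;> by_cases t10 <;> by_cases t01 <;> by_cases t11 <;>
    simp [*]

open Classical in
/-- Indicator of a boundary edge whose inner end satisfies `C`. -/
noncomputable def bd (C : ℕ → ℕ → Prop) (i j i' j' : ℕ) : ZMod 2 :=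
  if (T i j ∧ ¬ T i' j' ∧ C i j) ∨ (T i' j' ∧ ¬ T i j ∧ C i' j') then 1 else 0

theorem square_zero {C : ℕ → ℕ → Prop}
    (hC : ∀ p q : ℕ × ℕ, Near a b T p q → (C p.1 p.2 ↔ C q.1 q.2)) {i j : ℕ} (hi : i < a)
    (hj : j < b) :
    (bd T C i (j + 1) (i + 1) (j + 1) - bd T C i j (i + 1) j) +
      (bd T C (i + 1) j (i + 1) (j + 1) - bd T C i j i (j + 1)) = 0 := by
  classical
  let S : ℕ × ℕ → Prop := fun p => i ≤ p.1 ∧ p.1 ≤ i + 1 ∧ j ≤ p.2 ∧ p.2 ≤ j + 1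
  let k : Prop := ∃ p, S p ∧ Good a b T p ∧ C p.1 p.2
  have hk : ∀ p, S p → Good a b T p → (C p.1 p.2 ↔ k) := by
    intro p hp hg
    refine ⟨fun h => ⟨p, hp, hg, h⟩, ?_⟩
    rintro ⟨q, hq, hg', h⟩
    obtain ⟨p1, p2, p3, p4⟩ := hp
    obtain ⟨q1, q2, q3, q4⟩ := hq
    exact (hC q p ⟨hg', hg, by omega, by omega, by omega, by omega⟩).mp h
  have he : ∀ x y x' y' : ℕ, S (x, y) → S (x', y') →
      ((x' = x ∧ (y' = y + 1 ∨ y = y' + 1)) ∨ (y' = y ∧ (x' = x + 1 ∨ x = x' + 1))) →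
      bd T C x y x' y' = if k ∧ ¬ (T x y ↔ T x' y') then 1 else 0 := by
    intro x y x' y' hs hs' h
    obtain ⟨h1, h2, h3, h4⟩ := hs
    obtain ⟨h1', h2', h3', h4'⟩ := hs'
    simp only at h1 h2 h3 h4 h1' h2' h3' h4'
    have k1 : T x y → ¬ T x' y' → (C x y ↔ k) := fun u v =>
      hk (x, y) ⟨h1, h2, h3, h4⟩ ⟨show x ≤ a by omega, show y ≤ b by omega, u, (x', y'),
        show x' ≤ a by omega, show y' ≤ b by omega, v, h⟩
    have k2 : T x' y' → ¬ T x y → (C x' y' ↔ k) := fun u v =>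
      hk (x', y') ⟨h1', h2', h3', h4'⟩ ⟨show x' ≤ a by omega, show y' ≤ b by omega, u, (x, y),
        show x ≤ a by omega, show y ≤ b by omega, v,
        show (x = x' ∧ (y = y' + 1 ∨ y' = y + 1)) ∨ (y = y' ∧ (x = x' + 1 ∨ x' = x + 1)) by omega⟩
    unfold bd
    refine if_congr ⟨?_, ?_⟩ rfl rfl
    · rintro (⟨u, v, w⟩ | ⟨u, v, w⟩)
      · exact ⟨(k1 u v).mp w, fun e => v (e.mp u)⟩
      · exact ⟨(k2 u v).mp w, fun e => v (e.mpr u)⟩
    · rintro ⟨hkk, hne⟩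
      by_cases u : T x y
      · have v : ¬ T x' y' := fun v => hne (iff_of_true u v)
        exact Or.inl ⟨u, v, (k1 u v).mpr hkk⟩
      · have v : T x' y' := by_contra fun v => hne (iff_of_false u v)
        exact Or.inr ⟨v, u, (k2 v u).mpr hkk⟩
  rw [he i (j + 1) (i + 1) (j + 1) (by simp [S]) (by simp [S]) (by omega),
    he i j (i + 1) j (by simp [S]) (by simp [S]) (by omega),
    he (i + 1) j (i + 1) (j + 1) (by simp [S]) (by simp [S]) (by omega),
    he i j i (j + 1) (by simp [S]) (by simp [S]) (by omega)]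
  exact parity_square _ _ _ _ _

theorem climb (ha : 1 ≤ a) (hb : 1 ≤ b) (h0 : ∀ j ≤ b, T 0 j) (hb' : ∀ i ≤ a, T i b)
    (hc : ∀ i, 1 ≤ i → i ≤ a → ¬ T i 0) (hr : ∀ j < b, ¬ T a j) :
    Relation.ReflTransGen (Near a b T) (0, 0) (a, b) := by
  classical
  let C : ℕ → ℕ → Prop := fun i j => Relation.ReflTransGen (Near a b T) (0, 0) (i, j)
  let H : ℕ → ℕ → ZMod 2 := fun i j => bd T C i j (i + 1) j
  let W : ℕ → ℕ → ZMod 2 := fun i j => bd T C i j i (j + 1)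
  have hC : ∀ p q : ℕ × ℕ, Near a b T p q → (C p.1 p.2 ↔ C q.1 q.2) := fun p q h =>
    ⟨fun u => u.tail h, fun u => u.tail ⟨h.2.1, h.1, h.2.2.2.1, h.2.2.1, h.2.2.2.2.2, h.2.2.2.2.1⟩⟩
  have sq : ∀ i < a, ∀ j < b, (H i (j + 1) - H i j) + (W (i + 1) j - W i j) = 0 :=
    fun i hi j hj => square_zero a b T hC hi hj
  have hsum : ∑ i ∈ range a, ∑ j ∈ range b,
      ((H i (j + 1) - H i j) + (W (i + 1) j - W i j)) = 0 :=
    Finset.sum_eq_zero fun i hi => Finset.sum_eq_zero fun j hj =>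
      sq i (mem_range.mp hi) j (mem_range.mp hj)
  simp only [Finset.sum_add_distrib] at hsum
  rw [Finset.sum_comm (f := fun i j => W (i + 1) j - W i j)] at hsum
  rw [Finset.sum_congr rfl (fun i _ => Finset.sum_range_sub (fun j => H i j) b),
    Finset.sum_congr rfl (fun j _ => Finset.sum_range_sub (fun i => W i j) a)] at hsum
  simp only [Finset.sum_sub_distrib] at hsum
  have eHb : ∀ i ∈ range a, H i b = 0 := by
    intro i hi
    rw [mem_range] at hi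
    simp [H, bd, hb' i (by omega), hb' (i + 1) (by omega)]
  have eW0 : ∀ j ∈ range b, W 0 j = 0 := by
    intro j hj
    rw [mem_range] at hj
    simp [W, bd, h0 j (by omega), h0 (j + 1) (by omega)]
  have eH0 : ∑ i ∈ range a, H i 0 = 1 := by
    rw [Finset.sum_eq_single 0]
    · have : C 0 0 := Relation.ReflTransGen.refl
      simp [H, bd, h0 0 (Nat.zero_le b), hc 1 le_rfl ha, this]
    · intro i hi h
      rw [mem_range] at hi
      simp [H, bd, hc i (by omega) (by omega), hc (i + 1) (by omega) (by omega)]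
    · intro h; exact absurd (mem_range.mpr ha) h
  have eWa : ∑ j ∈ range b, W a j = if C a b then 1 else 0 := by
    obtain ⟨b', rfl⟩ : ∃ b', b = b' + 1 := ⟨b - 1, by omega⟩
    rw [Finset.sum_range_succ, Finset.sum_eq_zero, zero_add]
    · simp [W, bd, hr b' (by omega), hb' a le_rfl]
    · intro j hj
      rw [mem_range] at hj
      simp [W, bd, hr j (by omega), hr (j + 1) (by omega)]
  rw [Finset.sum_eq_zero eHb, Finset.sum_eq_zero eW0, eH0, eWa] at hsum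
  by_contra hC
  simp [C, hC] at hsum

end Vale.Agent.P335
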