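import Vale.Agent.P335.Trail

/-! All closed trails together: admissible sets join `∅` to the whole difference. -/

open Finset
open scoped symmDiff

namespace Vale.Agent.P335

variable {n : ℕ}

/-- A numbering of the darts. -/
noncomputable def dartIndex : Fin n × Fin n ≃ Fin (Fintype.card (Fin n × Fin n)) :=
  Fintype.equivFin _

open Classical in
/-- The union of the trails through the first `k` darts. -/
noncomputable def pref (ψ : Equiv.Perm (Fin n × Fin n)) (D : Finset (Sym2 (Fin n))) (k : ℕ) :
    Finset (Sym2 (Fin n)) :=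
  D.filter (fun e => ∃ x, (dartIndex x : ℕ) < k ∧ dedge x ∈ D ∧ e ∈ circ ψ x)

/-- A set described by a few numbers. -/
noncomputable def param (ψ : Equiv.Perm (Fin n × Fin n)) (D : Finset (Sym2 (Fin n)))
    (q : ℕ × (Fin n × Fin n) × ℕ) : Finset (Sym2 (Fin n)) :=
  pref ψ D q.1 ∪ seg ψ q.2.1 q.2.2

/-- The range of the descriptions. -/
def paramRange (n : ℕ) : Finset (ℕ × (Fin n × Fin n) × ℕ) :=
  range (n * n + 1) ×ˢ (univ ×ˢ range (n * n + 1))

open Classical in
/-- The candidate sets. -/
noncomputable def candidates (ψ : Equiv.Perm (Fin n × Fin n)) (D : Finset (Sym2 (Fin n))) :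
    Finset (Finset (Sym2 (Fin n))) :=
  (paramRange n).image (param ψ D)

theorem card_candidates (ψ : Equiv.Perm (Fin n × Fin n)) (D : Finset (Sym2 (Fin n))) :
    (candidates ψ D).card ≤ (n * n + 1) ^ 3 := by
  refine card_image_le.trans ?_
  simp only [paramRange, card_product, card_range, card_univ, Fintype.card_prod, Fintype.card_fin]
  calc (n * n + 1) * (n * n * (n * n + 1)) ≤ (n * n + 1) * ((n * n + 1) * (n * n + 1)) :=
        Nat.mul_le_mul_left _ (Nat.mul_le_mul_right _ (Nat.le_succ _))
    _ = (n * n + 1) ^ 3 := by ring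

theorem circ_shift (ψ : Equiv.Perm (Fin n × Fin n)) (x : Fin n × Fin n) (j : ℤ) :
    circ ψ ((step ψ ^ j) x) = circ ψ x := by
  ext e
  simp only [circ, mem_filter, mem_univ, true_and]
  constructor
  · rintro ⟨k, hk⟩; exact ⟨k + j, by rwa [zpow_add_apply]⟩
  · rintro ⟨k, hk⟩; exact ⟨k - j, by rwa [← zpow_add_apply, sub_add_cancel]⟩

variable {d : Fin n → ℕ} {G H : Finset (Sym2 (Fin n))} {ψ : Equiv.Perm (Fin n × Fin n)}

theorem Ctx.circ_subset_closed (c : Ctx d G H ψ) {x : Fin n × Fin n}
    {P : Finset (Sym2 (Fin n))} (hP : IsClosedSet ψ P) (hx : dedge x ∈ P) : circ ψ x ⊆ P := by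
  intro e he
  simp only [circ, mem_filter, mem_univ, true_and] at he
  obtain ⟨k, rfl⟩ := he
  by_contra hk
  have := c.circ_disjoint hP hk (-k)
  rw [← zpow_add_apply, neg_add_cancel] at this
  exact this (by simpa using hx)

theorem Ctx.closed_pref (c : Ctx d G H ψ) (k : ℕ) : IsClosedSet ψ (pref ψ (G ∆ H) k) := by
  intro y hy
  simp only [pref, mem_filter] at hy ⊢
  obtain ⟨hyD, x, h1, h2, h3⟩ := hy
  exact ⟨c.psi_mem hyD, x, h1, h2, c.closed_circ x y h3⟩

theorem Ctx.connect (c : Ctx d G H ψ) :
    Relation.ReflTransGen (Step d G H ψ (candidates ψ (G ∆ H))) ∅ (G ∆ H) := by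
  classical
  set D := G ∆ H with hD
  have main : ∀ k ≤ n * n,
      Relation.ReflTransGen (Step d G H ψ (candidates ψ D)) ∅ (pref ψ D k) := by
    intro k
    induction k with
    | zero =>
      intro _
      have : pref ψ D 0 = ∅ := by simp [pref]
      rw [this]
    | succ k ih =>
      intro hk
      have hk' : k < Fintype.card (Fin n × Fin n) := by simp; omega
      set x := dartIndex.symm ⟨k, hk'⟩ with hx
      have hxk : (dartIndex x : ℕ) = k := by simp [hx]
      have huniq : ∀ y, (dartIndex y : ℕ) = k → y = x := fun y hy => by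
        rw [hx, Equiv.eq_symm_apply]; exact Fin.ext hy
      by_cases hnew : dedge x ∈ D ∧ dedge x ∉ pref ψ D k
      · obtain ⟨hxD, hxP⟩ := hnew
        have hsucc : pref ψ D (k + 1) = pref ψ D k ∪ circ ψ x := by
          ext e
          simp only [pref, mem_union, mem_filter]
          constructor
          · rintro ⟨he, y, h1, h2, h3⟩
            rcases Nat.lt_succ_iff_lt_or_eq.mp h1 with h | h
            · exact Or.inl ⟨he, y, h, h2, h3⟩
            · exact Or.inr (huniq y h ▸ h3)
          · rintro (⟨he, y, h1, h2, h3⟩ | he)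
            · exact ⟨he, y, by omega, h2, h3⟩
            · exact ⟨c.circ_subset hxD he, x, by omega, hxD, he⟩
        obtain ⟨j, hj⟩ : ∃ j : ℤ, dedge ((step ψ ^ j) x) ∈ G := by
          by_cases hG : dedge x ∈ G
          · exact ⟨0, by simpa using hG⟩
          · refine ⟨1, ?_⟩
            have := (c.psi_colour (x := rev x) (by simpa using hxD)).mpr (by simpa using hG)
            simpa [step, Equiv.Perm.mul_apply] using this
        refine (ih (by omega)).trans ?_
        rw [hsucc, ← circ_shift ψ x j]
        refine c.trail_connect (c.trail_mem hxD j) hj (c.closed_pref k) (filter_subset _ _)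
          (c.circ_disjoint (c.closed_pref k) hxP j) ?_
        intro y m hm
        exact mem_image.mpr ⟨(k, y, m), by simp [paramRange]; omega, rfl⟩
      · have hsucc : pref ψ D (k + 1) = pref ψ D k := by
          ext e
          simp only [pref, mem_filter]
          constructor
          · rintro ⟨he, y, h1, h2, h3⟩
            rcases Nat.lt_succ_iff_lt_or_eq.mp h1 with h | h
            · exact ⟨he, y, h, h2, h3⟩
            · rw [huniq y h] at h2 h3
              have : dedge x ∈ pref ψ D k := by tauto
              exact mem_filter.mp (c.circ_subset_closed (c.closed_pref k) this h3)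
          · rintro ⟨he, y, h1, h2, h3⟩
            exact ⟨he, y, by omega, h2, h3⟩
        rw [hsucc]
        exact ih (by omega)
  have hlast : pref ψ D (n * n) = D := by
    refine Subset.antisymm (filter_subset _ _) ?_
    intro e he
    refine mem_filter.mpr ⟨he, ?_⟩
    induction e using Sym2.ind with
    | _ u v =>
      refine ⟨(u, v), ?_, he, ?_⟩
      · exact lt_of_lt_of_eq (dartIndex (u, v)).isLt (by simp)
      · simp only [circ, mem_filter, mem_univ, true_and]
        exact ⟨0, by simp [dedge]⟩
  have := main (n * n) le_rfl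
  rwa [hlast] at this

end Vale.Agent.P335
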