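import Vale.Agent.P335.Basic

/-! A state with two defects that straddle is near a realisation. -/

open Finset
open scoped symmDiff

namespace Vale.Agent.P335

variable {n : ℕ}

/-- `X` becomes a realisation of `d` after toggling at most `k` pairs. -/
def Fixable (d : Fin n → ℕ) (k : ℕ) (X : Finset (Sym2 (Fin n))) : Prop :=
  ∃ s : Finset (Sym2 (Fin n)), s.card ≤ k ∧ IsReal d (X ∆ s)

theorem Fixable.of_real {d : Fin n → ℕ} {k : ℕ} {X : Finset (Sym2 (Fin n))} (h : IsReal d X) :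
    Fixable d k X := ⟨∅, by simp, by rwa [← bot_eq_empty, symmDiff_bot]⟩

theorem fix_one {d : Fin n → ℕ} {X : Finset (Sym2 (Fin n))} {k : ℕ} (hk : 2 ≤ k)
    (hX : Loopless X) {x y z : Fin n} (h1 : s(y, x) ∈ X) (h2 : s(z, x) ∉ X) (h3 : z ≠ x)
    (hdeg : ∀ v, deg X v = (d v : ℤ) + ind v y - ind v z) : Fixable d k X := by
  obtain ⟨l, hd⟩ := move_spec hX h1 h2 h3
  refine ⟨{s(y, x), s(z, x)}, card_le_two.trans hk, l, fun v => ?_⟩
  rw [hd, hdeg]; ring

theorem fix_encoding {d : Fin n → ℕ} {X : Finset (Sym2 (Fin n))} (hX : Loopless X) {A B : Fin n}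
    (hdeg : ∀ v, deg X v = (d v : ℤ) + ind v A - ind v B) (hle : d B ≤ d A) :
    Fixable d 2 X := by
  by_cases hAB : A = B
  · subst hAB
    exact Fixable.of_real ⟨hX, fun v => by rw [hdeg]; ring⟩
  · have : deg X B + 1 ≤ deg X A := by
      rw [hdeg, hdeg]; simp [ind, hAB, Ne.symm hAB]; omega
    obtain ⟨x, h1, h2, h3⟩ := exists_private hX this
    exact fix_one le_rfl hX h1 h2 h3 hdeg

theorem fix_state {d : Fin n → ℕ} {X : Finset (Sym2 (Fin n))} (hX : Loopless X) {A B : Fin n}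
    (hdeg : ∀ v, deg X v = (d v : ℤ) - ind v A + ind v B)
    (hw : (∃ A' v, d A' ≤ d B ∧ s(A', v) ∈ X ∧ s(A, v) ∉ X ∧ A ≠ v) ∨
      (∃ B' v, d A ≤ d B' ∧ s(B, v) ∈ X ∧ s(B', v) ∉ X ∧ B' ≠ v)) :
    Fixable d 4 X := by
  by_cases hAB : A = B
  · subst hAB
    exact Fixable.of_real ⟨hX, fun v => by rw [hdeg]; ring⟩
  have hdeg' : ∀ v, deg X v = (d v : ℤ) + ind v B - ind v A := fun v => by rw [hdeg]; ring
  by_cases hsmall : d A ≤ d B + 1
  · have : deg X A + 1 ≤ deg X B := by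
      rw [hdeg, hdeg]; simp [ind, hAB, Ne.symm hAB]; omega
    obtain ⟨x, h1, h2, h3⟩ := exists_private hX this
    exact fix_one (by norm_num) hX h1 h2 h3 hdeg'
  rcases hw with ⟨A', v, hd', hin, hout, hne⟩ | ⟨B', v, hd', hin, hout, hne⟩
  · by_cases hA'B : A' = B
    · subst hA'B
      exact fix_one (by norm_num) hX hin hout hne hdeg'
    have hA'A : A' ≠ A := by rintro rfl; omega
    have : deg X A' + 1 ≤ deg X B := by
      rw [hdeg, hdeg]; simp [ind, hA'B, hA'A, Ne.symm hAB]; omega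
    obtain ⟨x, h1, h2, h3⟩ := exists_private hX this
    obtain ⟨l1, hd1⟩ := move_spec hX h1 h2 h3
    have hA'v : A' ≠ v := ne_of_mem hX hin
    have e1 : s(A', v) ∈ X ∆ {s(B, x), s(A', x)} := by
      refine mem_symmDiff.mpr (Or.inl ⟨hin, ?_⟩)
      simp [hA'B, h3]
      rintro rfl; exact h2 hin
    have e2 : s(A, v) ∉ X ∆ {s(B, x), s(A', x)} := by
      intro hmem
      rcases mem_symmDiff.mp hmem with ⟨h, -⟩ | ⟨h, -⟩
      · exact hout h
      · rcases mem_insert.mp h with h | h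
        · exact hout (h ▸ h1)
        · rcases Sym2.eq_iff.mp (mem_singleton.mp h) with ⟨e, -⟩ | ⟨-, e⟩
          · exact hA'A e.symm
          · exact hA'v e.symm
    obtain ⟨l2, hd2⟩ := move_spec l1 e1 e2 hne
    refine ⟨{s(B, x), s(A', x)} ∆ {s(A', v), s(A, v)}, ?_, ?_, fun u => ?_⟩
    · exact (card_symmDiff_le' _ _).trans (Nat.add_le_add card_le_two card_le_two)
    · rw [← symmDiff_assoc]; exact l2
    · rw [← symmDiff_assoc, hd2, hd1, hdeg]; ring
  · by_cases hB'A : B' = A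
    · subst hB'A
      exact fix_one (by norm_num) hX hin hout hne hdeg'
    obtain ⟨l1, hd1⟩ := move_spec hX hin hout hne
    have hB'B : B' ≠ B := by rintro rfl; omega
    have : deg (X ∆ {s(B, v), s(B', v)}) A + 1 ≤ deg (X ∆ {s(B, v), s(B', v)}) B' := by
      rw [hd1, hd1, hdeg, hdeg]
      simp [ind, hB'A, Ne.symm hB'A, hB'B, hAB]
      omega
    obtain ⟨x, h1, h2, h3⟩ := exists_private l1 this
    obtain ⟨l2, hd2⟩ := move_spec l1 h1 h2 h3
    refine ⟨{s(B, v), s(B', v)} ∆ {s(B', x), s(A, x)}, ?_, ?_, fun u => ?_⟩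
    · exact (card_symmDiff_le' _ _).trans (Nat.add_le_add card_le_two card_le_two)
    · rw [← symmDiff_assoc]; exact l2
    · rw [← symmDiff_assoc, hd2, hd1, hdeg]; ring

end Vale.Agent.P335
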