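import Vale.Agent.P335.Bridge
import Mathlib.Algebra.Order.Chebyshev
import Mathlib.Analysis.SpecialFunctions.Pow.Real

/-! From the variance comparison to the mixing time. -/

open Finset
open scoped symmDiff

namespace Vale.Agent.P335

variable {n : ℕ}

/-- The bound on the relaxation time. -/
def relaxBound (n : ℕ) : ℕ := 12 * 4 ^ 16 * (n * n + 1) ^ 106 * n ^ 4

theorem pow_half {L : ℕ} (hL : 0 < L) : (1 - 1 / (L : ℝ)) ^ L ≤ 1 / 2 := by
  have hL' : (1 : ℝ) ≤ L := by exact_mod_cast hL
  have h0 : (0 : ℝ) ≤ 1 - 1 / (L : ℝ) := by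
    rw [sub_nonneg, div_le_one (by linarith)]; exact hL'
  have hb := one_add_mul_le_pow (a := 1 / (L : ℝ)) (by have : (0 : ℝ) ≤ 1 / (L : ℝ) := (by positivity); linarith) L
  rw [mul_one_div_cancel (by linarith)] at hb
  have hp : (1 - 1 / (L : ℝ)) ^ L * (1 + 1 / (L : ℝ)) ^ L ≤ 1 := by
    rw [← mul_pow]
    refine pow_le_one₀ (mul_nonneg h0 (by positivity)) ?_
    have := sq_nonneg (1 / (L : ℝ))
    nlinarith
  nlinarith [pow_nonneg h0 L]

/-- The squared distance contracts in every step. -/
theorem sq_step {d : Fin n → ℕ} (hn : 4 ≤ n) (h : Realization d → ℝ) (hsum : ∑ K, h K = 0) :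
    ∑ H, (∑ K, h K * transition d K H) ^ 2 ≤ (1 - 1 / (relaxBound n : ℝ)) * ∑ H, h H ^ 2 := by
  classical
  set Q : Realization d → Realization d → ℝ := fun K H => switchProb K.1 H.1 with hQ
  have hQsum : ∀ K, ∑ H, Q K H = 1 := fun K => switchProb_sum hn K
  have hQsum' : ∀ H, ∑ K, Q K H = 1 := fun H => by
    rw [← hQsum H]; exact sum_congr rfl fun K _ => switchProb_symm K H
  have hQ0 : ∀ K H, 0 ≤ Q K H := fun K H => switchProb_nonneg _ _
  set q : Realization d → ℝ := fun H => ∑ K, h K * Q K H with hq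
  have hstep : ∀ H, ∑ K, h K * transition d K H = (h H + q H) / 2 := by
    intro H
    simp only [transition, mul_add, mul_ite, mul_zero, sum_add_distrib, sum_ite_eq', mem_univ,
      if_true, hq, hQ]
    rw [sum_congr rfl (fun K _ => show h K * (1 / 2 * switchProb K.1 H.1) =
      (h K * switchProb K.1 H.1) / 2 by ring), ← sum_div]
    ring
  have hq2 : ∑ H, q H ^ 2 ≤ ∑ H, h H ^ 2 := by
    have hj : ∀ H, q H ^ 2 ≤ ∑ K, h K ^ 2 * Q K H := by
      intro H
      have := sum_sq_le_sum_mul_sum_of_sq_le_mul univ (r := fun K => h K * Q K H)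
        (f := fun K => h K ^ 2 * Q K H) (g := fun K => Q K H)
        (fun K _ => mul_nonneg (sq_nonneg _) (hQ0 K H)) (fun K _ => hQ0 K H)
        (fun K _ => le_of_eq (by ring))
      rwa [hQsum', mul_one] at this
    refine (sum_le_sum fun H _ => hj H).trans (le_of_eq ?_)
    rw [sum_comm]
    exact sum_congr rfl fun K _ => by rw [← mul_sum, hQsum, mul_one]
  set A := ∑ H, h H ^ 2 with hA
  set B := ∑ H, h H * q H with hB
  set D := ∑ K, ∑ H, Q K H * (h H - h K) ^ 2 with hD
  have hDB : D = 2 * A - 2 * B := by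
    have e : ∀ K H, Q K H * (h H - h K) ^ 2 =
        Q K H * h H ^ 2 + h K ^ 2 * Q K H - 2 * (h H * (h K * Q K H)) := fun K H => by ring
    simp only [hD, e, sum_add_distrib, sum_sub_distrib]
    rw [sum_comm (f := fun K H => Q K H * h H ^ 2),
      sum_comm (f := fun K H => 2 * (h H * (h K * Q K H)))]
    simp only [← sum_mul, ← mul_sum, hQsum, hQsum', one_mul, mul_one, hA, hB, hq]
    ring
  -- switches carry energy
  set φ : Finset (Sym2 (Fin n)) → ℝ := fun X =>
    if hX : X ∈ realSet d then h ((realEquiv d).symm ⟨X, hX⟩) else 0 with hφ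
  have hφe : ∀ G : Realization d, φ (edges G.1) = h G := by
    intro G
    have hm : edges G.1 ∈ realSet d := mem_realSet.mpr (edges_real G)
    simp only [hφ, dif_pos hm]
    congr 1
    rw [Equiv.symm_apply_eq]
    rfl
  have hS : switchEnergy d φ ≤ 6 * (n : ℝ) ^ 4 * D := by
    unfold switchEnergy
    rw [← sum_realization, hD, mul_sum]
    refine sum_le_sum fun G _ => ?_
    rw [← sum_realization, mul_sum]
    refine sum_le_sum fun H _ => ?_
    rw [hφe, hφe]
    split_ifs with hsw
    · have hl := switchProb_lower hn G H hsw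
      rw [div_le_iff₀ (by positivity)] at hl
      rw [← mul_assoc]
      refine le_mul_of_one_le_left (sq_nonneg _) ?_
      simp only [hQ]; linarith
    · exact mul_nonneg (by positivity) (mul_nonneg (hQ0 G H) (sq_nonneg _))
  have hvar := variance_le (d := d) φ
  have hlhs : ∑ G ∈ realSet d, ∑ H ∈ realSet d, (φ H - φ G) ^ 2 =
      2 * (realSet d).card * A := by
    rw [← sum_realization (fun X => ∑ Y ∈ realSet d, (φ Y - φ X) ^ 2)]
    simp only [← sum_realization, hφe]
    have e : ∀ K H : Realization d, (h H - h K) ^ 2 = h H ^ 2 + h K ^ 2 - 2 * (h K * h H) :=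
      fun K H => by ring
    simp only [e, sum_add_distrib, sum_sub_distrib, ← mul_sum, hsum, mul_zero, sum_const_zero,
      sum_const, card_univ, nsmul_eq_mul, card_realization, hA, sub_zero]
    ring
  rw [hlhs] at hvar
  by_cases hN : (realSet d).card = 0
  · have : IsEmpty (Realization d) := Fintype.card_eq_zero_iff.mp (by rw [card_realization, hN])
    simp [hA]
  have hNpos : (0 : ℝ) < (realSet d).card := by exact_mod_cast Nat.pos_of_ne_zero hN
  have hD0 : 0 ≤ D := sum_nonneg fun K _ => sum_nonneg fun H _ => mul_nonneg (hQ0 K H) (sq_nonneg _)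
  have hAD : A ≤ (relaxBound n : ℝ) * (D / 4) := by
    have h1 : 2 * ((realSet d).card : ℝ) * A ≤ (((n * n + 1) ^ 106 : ℕ) : ℝ) * 4 ^ 16 *
        (realSet d).card * (6 * (n : ℝ) ^ 4 * D) :=
      hvar.trans (mul_le_mul_of_nonneg_left hS (by positivity))
    have h2 : (relaxBound n : ℝ) = 12 * 4 ^ 16 * (((n * n + 1) ^ 106 : ℕ) : ℝ) * (n : ℝ) ^ 4 := by
      simp only [relaxBound, Nat.cast_mul, Nat.cast_pow, Nat.cast_ofNat]
    rw [h2]
    refine le_of_mul_le_mul_left ?_ (by positivity : (0 : ℝ) < 2 * (realSet d).card)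
    refine h1.trans (le_of_eq ?_)
    ring
  have hLpos : (0 : ℝ) < relaxBound n := by
    unfold relaxBound; push_cast; positivity
  have hmain : ∑ H, ((h H + q H) / 2) ^ 2 ≤ A - D / 4 := by
    have e : ∀ H, ((h H + q H) / 2) ^ 2 = h H ^ 2 / 4 + q H ^ 2 / 4 + (h H * q H) / 2 :=
      fun H => by ring
    simp only [e, sum_add_distrib, ← sum_div]
    rw [← hA, ← hB]
    linarith
  simp only [hstep]
  refine hmain.trans ?_
  rw [sub_mul, one_mul, one_div_mul_eq_div]
  have : A / (relaxBound n : ℝ) ≤ D / 4 := by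
    rw [div_le_iff₀ hLpos]; linarith [mul_comm (D / 4) (relaxBound n : ℝ)]
  linarith

theorem row_sum {d : Fin n → ℕ} (hn : 4 ≤ n) (K : Realization d) :
    ∑ H, transition d K H = 1 := by
  classical
  simp only [transition, sum_add_distrib, sum_ite_eq, mem_univ, if_true, ← mul_sum,
    switchProb_sum hn K]
  norm_num

theorem col_sum {d : Fin n → ℕ} (hn : 4 ≤ n) (H : Realization d) :
    ∑ K, transition d K H = 1 := by
  rw [← row_sum hn H]
  refine sum_congr rfl fun K _ => ?_
  by_cases h : K = H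
  · rw [h]
  · simp [transition, switchProb_symm K H, h, Ne.symm h]

theorem mixes (hn : 4 ≤ n) (d : Fin n → ℕ) (G : Realization d) (t : ℕ)
    (ht : relaxBound n * (n * n + 2) ≤ t) : tvDistance d t G ≤ 1 / 4 := by
  classical
  set N : ℝ := (Fintype.card (Realization d) : ℝ) with hN
  have hNpos : 0 < N := by rw [hN]; exact_mod_cast Fintype.card_pos_iff.mpr ⟨G⟩
  let h : ℕ → Realization d → ℝ := fun s H => (transition d ^ s) G H - 1 / N
  have hsucc : ∀ s H, h (s + 1) H = ∑ K, h s K * transition d K H := by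
    intro s H
    simp only [h, pow_succ, Matrix.mul_apply, sub_mul, sum_sub_distrib, ← mul_sum, col_sum hn H,
      mul_one]
  have hsum : ∀ s, ∑ H, h s H = 0 := by
    intro s
    induction s with
    | zero =>
      simp only [h, pow_zero, sum_sub_distrib, Matrix.one_apply, sum_ite_eq, mem_univ, if_true,
        sum_const, card_univ, nsmul_eq_mul, ← hN]
      rw [mul_one_div_cancel hNpos.ne', sub_self]
    | succ s ih =>
      simp only [hsucc]
      rw [sum_comm]
      simp only [← mul_sum, row_sum hn, mul_one, ih]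
  set r : ℝ := 1 - 1 / (relaxBound n : ℝ) with hr
  have hL : 0 < relaxBound n := by unfold relaxBound; positivity
  have hr1 : r ≤ 1 := by rw [hr, sub_le_self_iff]; positivity
  have hr0 : 0 ≤ r := by
    rw [hr, sub_nonneg, div_le_one (by exact_mod_cast hL)]
    exact_mod_cast hL
  have hdecay : ∀ s, ∑ H, h s H ^ 2 ≤ r ^ s := by
    intro s
    induction s with
    | zero =>
      have e : ∀ H, h 0 H ^ 2 = (if G = H then (1 - 2 / N) else 0) + (1 / N) ^ 2 := by
        intro H
        simp only [h, pow_zero, Matrix.one_apply]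
        split_ifs <;> ring
      simp only [e, sum_add_distrib, sum_ite_eq, mem_univ, if_true, sum_const, card_univ,
        nsmul_eq_mul, ← hN]
      have : 0 < 1 / N := by positivity
      have e2 : N * (1 / N) ^ 2 = 1 / N := by field_simp
      rw [e2, show 2 / N = 2 * (1 / N) by ring]
      linarith
    | succ s ih =>
      simp only [hsucc]
      refine (sq_step hn (h s) (hsum s)).trans ?_
      rw [pow_succ']
      exact mul_le_mul_of_nonneg_left ih hr0
  have hN2 : N ≤ (2 : ℝ) ^ (n * n) := by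
    rw [hN, card_realization]
    have : (realSet d).card ≤ 2 ^ (n * n) := by
      refine (card_le_univ _).trans ?_
      rw [Fintype.card_finset]
      exact Nat.pow_le_pow_right (by norm_num) (card_sym2_le n)
    exact_mod_cast this
  have hrt : r ^ t ≤ (1 / 2 : ℝ) ^ (n * n + 2) := by
    refine (pow_le_pow_of_le_one hr0 hr1 ht).trans ?_
    rw [pow_mul]
    exact pow_le_pow_left₀ (pow_nonneg hr0 _) (pow_half hL) _
  have habs : (∑ H, |h t H|) ^ 2 ≤ (1 / 2 : ℝ) ^ 2 := by
    have h1 := sq_sum_le_card_mul_sum_sq (s := (univ : Finset (Realization d)))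
      (f := fun H => |h t H|)
    simp only [sq_abs, card_univ, ← hN] at h1
    refine h1.trans ?_
    calc N * ∑ H, h t H ^ 2 ≤ (2 : ℝ) ^ (n * n) * (1 / 2 : ℝ) ^ (n * n + 2) :=
          mul_le_mul hN2 ((hdecay t).trans hrt) (sum_nonneg fun H _ => sq_nonneg _) (by positivity)
      _ = _ := by rw [pow_add, ← mul_assoc, ← mul_pow]; norm_num
  have := abs_le_of_sq_le_sq habs (by norm_num)
  have := le_of_abs_le this
  unfold tvDistance
  simp only [h, hN] at this ⊢
  linarith

/-- The mixing bound in the form `C * n ^ k`. -/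
theorem rapid_mixing : ∃ C k : ℕ, ∀ n : ℕ, 4 ≤ n → ∀ d : Fin n → ℕ, ∀ G : Realization d,
    ∀ t : ℕ, C * n ^ k ≤ t → tvDistance d t G ≤ 1 / 4 := by
  refine ⟨12 * 4 ^ 16 * 2 ^ 106 * 2, 218, fun n hn d G t ht => mixes hn d G t (le_trans ?_ ht)⟩
  unfold relaxBound
  have hnn : 2 ≤ n * n := by nlinarith
  calc 12 * 4 ^ 16 * (n * n + 1) ^ 106 * n ^ 4 * (n * n + 2)
      ≤ 12 * 4 ^ 16 * (2 * (n * n)) ^ 106 * n ^ 4 * (2 * (n * n)) := by gcongr <;> omega
    _ = 12 * 4 ^ 16 * 2 ^ 106 * 2 * n ^ 218 := by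
      rw [mul_pow, ← sq, ← pow_mul]; ring

end Vale.Agent.P335
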