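import Vale.Agent.P335.Basic
import Mathlib.GroupTheory.Perm.Basic
import Mathlib.Logic.Equiv.Fin.Basic
import Mathlib.Data.Fintype.Perm

/-! Pairings of the edges at each vertex and the closed trails they define. -/

open Finset
open scoped symmDiff

namespace Vale.Agent.P335

variable {n : ℕ}

/-- The edge of a dart. -/
def dedge (x : Fin n × Fin n) : Sym2 (Fin n) := s(x.1, x.2)

/-- Reversal of darts. -/
def rev : Equiv.Perm (Fin n × Fin n) := Equiv.prodComm _ _

@[simp] theorem rev_fst (x : Fin n × Fin n) : (rev x).1 = x.2 := rfl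
@[simp] theorem rev_snd (x : Fin n × Fin n) : (rev x).2 = x.1 := rfl
@[simp] theorem rev_rev (x : Fin n × Fin n) : rev (rev x) = x := rfl
@[simp] theorem dedge_rev (x : Fin n × Fin n) : dedge (rev x) = dedge x := Sym2.eq_swap

/-- The darts whose edge lies in `X`. -/
def dartsIn (X : Finset (Sym2 (Fin n))) : Finset (Fin n × Fin n) :=
  univ.filter (fun x => dedge x ∈ X)

@[simp] theorem mem_dartsIn {X : Finset (Sym2 (Fin n))} {x : Fin n × Fin n} :
    x ∈ dartsIn X ↔ dedge x ∈ X := by simp [dartsIn]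

/-- `ψ` pairs, at every vertex, the darts of `D` in `c` with those outside `c`. -/
def IsPairing (D : Finset (Sym2 (Fin n))) (c : Finset (Fin n × Fin n))
    (ψ : Equiv.Perm (Fin n × Fin n)) : Prop :=
  ∀ x, (ψ x).1 = x.1 ∧ ψ (ψ x) = x ∧ (dedge x ∉ D → ψ x = x) ∧
    (dedge x ∈ D → dedge (ψ x) ∈ D ∧ (ψ x ∈ c ↔ x ∉ c))

open Classical in
/-- The set of all pairings. -/
noncomputable def pairings (D : Finset (Sym2 (Fin n))) (c : Finset (Fin n × Fin n)) :
    Finset (Equiv.Perm (Fin n × Fin n)) := univ.filter (IsPairing D c)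

theorem mem_pairings {D : Finset (Sym2 (Fin n))} {c : Finset (Fin n × Fin n)}
    {ψ : Equiv.Perm (Fin n × Fin n)} : ψ ∈ pairings D c ↔ IsPairing D c ψ := by
  simp [pairings]

/-- Vertex and type of a dart. -/
def cls (D : Finset (Sym2 (Fin n))) (c : Finset (Fin n × Fin n)) (x : Fin n × Fin n) :
    Fin n × Option Bool :=
  (x.1, if dedge x ∈ D then some (decide (x ∈ c)) else none)

theorem card_cls {D : Finset (Sym2 (Fin n))} {c c' : Finset (Fin n × Fin n)}
    {ψ ψ' : Equiv.Perm (Fin n × Fin n)} (h : IsPairing D c ψ) (h' : IsPairing D c' ψ')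
    (k : Fin n × Option Bool) :
    (univ.filter fun x => cls D c x = k).card = (univ.filter fun x => cls D c' x = k).card := by
  obtain ⟨v, o⟩ := k
  have half : ∀ (c : Finset (Fin n × Fin n)) (ψ : Equiv.Perm (Fin n × Fin n)),
      IsPairing D c ψ → 2 * (univ.filter fun x => cls D c x = (v, some true)).card =
        (univ.filter fun x : Fin n × Fin n => x.1 = v ∧ dedge x ∈ D).card ∧
        (univ.filter fun x => cls D c x = (v, some true)).card =
        (univ.filter fun x => cls D c x = (v, some false)).card := by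
    intro c ψ h
    have e : (univ.filter fun x => cls D c x = (v, some true)).card =
        (univ.filter fun x => cls D c x = (v, some false)).card := by
      refine card_nbij' ψ ψ ?_ ?_ (fun x _ => (h x).2.1) (fun x _ => (h x).2.1)
      all_goals
        intro x hx
        simp only [coe_filter, mem_univ, true_and, Set.mem_ofPred_eq, cls, Prod.mk.injEq] at hx ⊢
        obtain ⟨hv, hx⟩ := hx
        by_cases hD : dedge x ∈ D
        · obtain ⟨hD', hc⟩ := (h x).2.2.2 hD
          simp [hD] at hx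
          simp [hD', (h x).1, hv, hc, hx]
        · simp [hD] at hx
    refine ⟨?_, e⟩
    rw [two_mul]
    conv_lhs => arg 2; rw [e]
    rw [← card_union_of_disjoint]
    · congr 1
      ext x
      simp only [mem_union, mem_filter, mem_univ, true_and, cls, Prod.mk.injEq]
      by_cases hD : dedge x ∈ D <;> by_cases hc : x ∈ c <;> simp [hD, hc]
    · rw [disjoint_left]
      intro x h1 h2
      simp only [mem_filter, mem_univ, true_and] at h1 h2
      rw [h1] at h2
      simp at h2
  obtain ⟨a1, a2⟩ := half c ψ h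
  obtain ⟨b1, b2⟩ := half c' ψ' h'
  match o with
  | some true => omega
  | some false => omega
  | none =>
    congr 1
    ext x
    simp only [mem_filter, mem_univ, true_and, cls, Prod.mk.injEq]
    by_cases hD : dedge x ∈ D <;> simp [hD]

/-- The number of pairings does not depend on the colouring. -/
theorem card_pairings_eq {D : Finset (Sym2 (Fin n))} {c c' : Finset (Fin n × Fin n)}
    {ψ ψ' : Equiv.Perm (Fin n × Fin n)} (h : IsPairing D c ψ) (h' : IsPairing D c' ψ') :
    (pairings D c).card = (pairings D c').card := by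
  have key : ∀ (c c' : Finset (Fin n × Fin n)) (σ : Equiv.Perm (Fin n × Fin n)),
      (∀ x, cls D c (σ x) = cls D c' x) → ∀ φ, IsPairing D c φ →
        IsPairing D c' (σ⁻¹ * φ * σ) := by
    intro c c' σ hσ φ hφ x
    have hs : ∀ y, (σ y).1 = y.1 ∧ (dedge (σ y) ∈ D ↔ dedge y ∈ D) ∧
        (dedge y ∈ D → (σ y ∈ c ↔ y ∈ c')) := by
      intro y
      have := hσ y
      simp only [cls, Prod.mk.injEq] at this
      obtain ⟨h1, h2⟩ := this
      refine ⟨h1, ?_, ?_⟩
      · by_cases a : dedge (σ y) ∈ D <;> by_cases b : dedge y ∈ D <;> simp [a, b] at h2 ⊢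
      · intro b
        by_cases a : dedge (σ y) ∈ D <;> simp [a, b] at h2 ⊢
        exact h2
    set y := (σ⁻¹ * φ * σ) x with hy
    have hyy : σ y = φ (σ x) := by simp [hy, Equiv.Perm.mul_apply]
    obtain ⟨p1, p2, p3, p4⟩ := hφ (σ x)
    obtain ⟨x1, x2, x3⟩ := hs x
    obtain ⟨y1, y2, y3⟩ := hs y
    rw [hyy] at y1 y2 y3
    refine ⟨?_, ?_, ?_, ?_⟩
    · rw [← y1, p1, x1]
    · simp [Equiv.Perm.mul_apply, hyy, p2]
    · intro hD
      have := p3 (fun h => hD (x2.mp h))
      exact σ.injective (hyy.trans this)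
    · intro hD
      obtain ⟨q1, q2⟩ := p4 (x2.mpr hD)
      refine ⟨y2.mp q1, ?_⟩
      rw [← y3 (y2.mp q1), q2, x3 hD]
  have hcard : ∀ k, Fintype.card {x // cls D c' x = k} = Fintype.card {x // cls D c x = k} := by
    intro k
    rw [Fintype.card_subtype, Fintype.card_subtype]
    exact (card_cls h h' k).symm
  let σ : Equiv.Perm (Fin n × Fin n) :=
    Equiv.ofFiberEquiv (fun k => Fintype.equivOfCardEq (hcard k))
  have hσ : ∀ x, cls D c (σ x) = cls D c' x := fun x => Equiv.ofFiberEquiv_map _ x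
  have hσ' : ∀ x, cls D c' (σ⁻¹ x) = cls D c x := fun x => by
    have := hσ (σ⁻¹ x)
    simpa using this.symm
  refine card_nbij' (fun φ => σ⁻¹ * φ * σ) (fun φ => σ * φ * σ⁻¹) ?_ ?_ ?_ ?_
  · intro φ hφ
    exact mem_pairings.mpr (key c c' σ hσ φ (mem_pairings.mp hφ))
  · intro φ hφ
    exact mem_pairings.mpr (by
      simpa using key c' c σ⁻¹ hσ' φ (mem_pairings.mp hφ))
  · intro φ _; simp [mul_assoc]
  · intro φ _; simp [mul_assoc]

/-- The difference of two realisations has a pairing. -/
theorem exists_pairing {d : Fin n → ℕ} {G H : Finset (Sym2 (Fin n))} (hG : IsReal d G)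
    (hH : IsReal d H) : ∃ ψ, IsPairing (G ∆ H) (dartsIn G) ψ := by
  let T := {x : Fin n × Fin n // dedge x ∈ G \ H}
  let F := {x : Fin n × Fin n // dedge x ∈ H \ G}
  have hc : ∀ v, Fintype.card {x : T // x.1.1 = v} = Fintype.card {x : F // x.1.1 = v} := by
    intro v
    have e : ∀ A : Finset (Sym2 (Fin n)),
        Fintype.card {x : {x : Fin n × Fin n // dedge x ∈ A} // x.1.1 = v} = (nb A v).card := by
      intro A
      rw [Fintype.card_subtype]
      refine card_bij (fun x _ => x.1.2) ?_ ?_ ?_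
      · rintro ⟨⟨p, q⟩, hm⟩ hx
        simp only [mem_filter, mem_univ, true_and] at hx
        subst hx
        simpa [nb, dedge] using hm
      · rintro ⟨⟨p, q⟩, hm⟩ hx ⟨⟨p', q'⟩, hm'⟩ hx' hq
        simp only [mem_filter, mem_univ, true_and] at hx hx'
        simp only at hq
        subst hx hx' hq
        rfl
      · intro u hu
        simp only [nb, mem_filter, mem_univ, true_and] at hu
        exact ⟨⟨(v, u), hu⟩, by simp, rfl⟩
    rw [e, e]
    have e1 : ∀ A B : Finset (Sym2 (Fin n)), nb (A \ B) v = nb A v \ nb B v := by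
      intro A B; ext u; simp [nb]
    have h := (deg_eq_card_nb G v).symm.trans
      ((hG.2 v).trans ((hH.2 v).symm.trans (deg_eq_card_nb H v)))
    rw [e1, e1]
    exact card_sdiff_comm (by exact_mod_cast h)
  let e : T ≃ F := Equiv.ofFiberEquiv (f := fun x => x.1.1) (g := fun x => x.1.1)
    (fun v => Fintype.equivOfCardEq (hc v))
  have he : ∀ x : T, (e x).1.1 = x.1.1 := fun x =>
    Equiv.ofFiberEquiv_map (f := fun x : T => x.1.1) (g := fun x : F => x.1.1) _ x
  let f : Fin n × Fin n → Fin n × Fin n := fun x =>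
    if h : dedge x ∈ G \ H then (e ⟨x, h⟩).1
    else if h' : dedge x ∈ H \ G then (e.symm ⟨x, h'⟩).1 else x
  have hf1 : ∀ x : T, f x.1 = (e x).1 := fun x => by
    simp only [f, dif_pos x.2]; rfl
  have hf2 : ∀ x : F, f x.1 = (e.symm x).1 := fun x => by
    have hn : dedge x.1 ∉ G \ H := fun h => (mem_sdiff.mp x.2).2 (mem_sdiff.mp h).1
    simp only [f, dif_neg hn, dif_pos x.2]; rfl
  have hinv : Function.Involutive f := by
    intro x
    by_cases h : dedge x ∈ G \ H
    · rw [hf1 ⟨x, h⟩, hf2, Equiv.symm_apply_apply]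
    · by_cases h' : dedge x ∈ H \ G
      · rw [hf2 ⟨x, h'⟩, hf1, Equiv.apply_symm_apply]
      · simp only [f, dif_neg h, dif_neg h']
  refine ⟨hinv.toPerm, fun x => ⟨?_, hinv x, ?_, ?_⟩⟩
  · show (f x).1 = x.1
    by_cases h : dedge x ∈ G \ H
    · rw [hf1 ⟨x, h⟩]; exact he _
    · by_cases h' : dedge x ∈ H \ G
      · rw [hf2 ⟨x, h'⟩]
        have := he (e.symm ⟨x, h'⟩)
        rw [Equiv.apply_symm_apply] at this
        exact this.symm
      · simp only [f, dif_neg h, dif_neg h']
  · intro hD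
    show f x = x
    have h : dedge x ∉ G \ H := fun h => hD (mem_symmDiff.mpr (Or.inl (mem_sdiff.mp h)))
    have h' : dedge x ∉ H \ G := fun h => hD (mem_symmDiff.mpr (Or.inr (mem_sdiff.mp h)))
    simp only [f, dif_neg h, dif_neg h']
  · intro hD
    show dedge (f x) ∈ G ∆ H ∧ (f x ∈ dartsIn G ↔ x ∉ dartsIn G)
    rcases mem_symmDiff.mp hD with h | h
    · rw [hf1 ⟨x, mem_sdiff.mpr h⟩]
      have := mem_sdiff.mp (e ⟨x, mem_sdiff.mpr h⟩).2
      simp [mem_symmDiff, this.1, this.2, h.1]
    · rw [hf2 ⟨x, mem_sdiff.mpr h⟩]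
      have := mem_sdiff.mp (e.symm ⟨x, mem_sdiff.mpr h⟩).2
      simp [mem_symmDiff, this.1, this.2, h.2]

/-- Darts where `F` meets its complement under `ψ`. -/
def defects (ψ : Equiv.Perm (Fin n × Fin n)) (F : Finset (Sym2 (Fin n))) :
    Finset (Fin n × Fin n) :=
  univ.filter (fun x => dedge x ∈ F ∧ dedge (ψ x) ∉ F)

/-- After toggling `F`, the pairing fits the colouring corrected at the defects. -/
theorem pairing_toggle {D G : Finset (Sym2 (Fin n))} {ψ : Equiv.Perm (Fin n × Fin n)}
    (h : IsPairing D (dartsIn G) ψ) (F : Finset (Sym2 (Fin n))) :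
    IsPairing D (dartsIn (G ∆ F) ∆ defects ψ F) ψ := by
  intro x
  obtain ⟨p1, p2, p3, p4⟩ := h x
  refine ⟨p1, p2, p3, fun hD => ⟨(p4 hD).1, ?_⟩⟩
  have hq := (p4 hD).2
  simp only [mem_dartsIn] at hq
  simp only [mem_symmDiff, mem_dartsIn, defects, mem_filter, mem_univ, true_and, p2]
  by_cases a : dedge x ∈ G <;> by_cases b : dedge x ∈ F <;> by_cases c : dedge (ψ x) ∈ F <;>
    simp [a] at hq <;> simp [a, b, c, hq]

end Vale.Agent.P335
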