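import Mathlib.Combinatorics.SimpleGraph.DeleteEdges
import Mathlib.Combinatorics.SimpleGraph.Finite
import Mathlib.Data.Matrix.Mul
import Mathlib.Data.Matrix.Basic
import Mathlib.LinearAlgebra.Matrix.Defs
import Mathlib.Data.Real.Basic
import Mathlib.Data.Finset.Powerset
import Mathlib.Data.Nat.Choose.Basic
import Mathlib.Data.Fintype.Powerset
import Mathlib.Data.Set.Card

/-! The switch chain on simple graphs with prescribed degrees. -/

namespace Vale.Agent.P335

variable {n : ℕ}

/-- The simple graphs on `Fin n` in which every vertex `v` has degree `d v`. -/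
abbrev Realization (d : Fin n → ℕ) :=
  {G : SimpleGraph (Fin n) // ∀ v, (G.neighborSet v).ncard = d v}

noncomputable instance (d : Fin n → ℕ) : Fintype (Realization d) := Fintype.ofFinite _

open Classical in
/-- The perfect matchings of the complete graph on the vertex set `S`, for `S` of size four:
two non-loop pairs inside `S` such that every vertex of `S` lies in exactly one of them. -/
noncomputable def perfectMatchings (S : Finset (Fin n)) : Finset (Finset (Sym2 (Fin n))) :=
  Finset.univ.filter (fun F => F.card = 2 ∧ (∀ e ∈ F, ¬ e.IsDiag ∧ ∀ v ∈ e, v ∈ S) ∧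
    ∀ v ∈ S, ∃! e, e ∈ F ∧ v ∈ e)

open Classical in
/-- Replace `F` by `F'` if all edges of `F` are present and all of `F'` absent. -/
noncomputable def switchGraph (G : SimpleGraph (Fin n))
    (p : Finset (Sym2 (Fin n)) × Finset (Sym2 (Fin n))) : SimpleGraph (Fin n) :=
  if (∀ e ∈ p.1, e ∈ G.edgeSet) ∧ (∀ e ∈ p.2, e ∉ G.edgeSet) then
    G.deleteEdges (p.1 : Set (Sym2 (Fin n))) ⊔
      SimpleGraph.fromEdgeSet (p.2 : Set (Sym2 (Fin n)))
  else G

open Classical in
/-- Probability of going from `G` to `G'` in one proposal: a four-element set chosen uniformly,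
then one of the six ordered pairs of distinct perfect matchings on it chosen uniformly. -/
noncomputable def switchProb (G G' : SimpleGraph (Fin n)) : ℝ :=
  ∑ S ∈ (Finset.univ : Finset (Fin n)).powersetCard 4, (1 / (Nat.choose n 4 : ℝ)) *
    ∑ p ∈ (perfectMatchings S).offDiag, (1 / 6 : ℝ) * if switchGraph G p = G' then 1 else 0

open Classical in
/-- The transition matrix of the lazy switch chain. -/
noncomputable def transition (d : Fin n → ℕ) : Matrix (Realization d) (Realization d) ℝ :=
  fun G G' => (if G = G' then 1 / 2 else 0) + 1 / 2 * switchProb G.1 G'.1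

open Classical in
/-- Total variation distance between the law after `t` steps from `G` and the uniform law. -/
noncomputable def tvDistance (d : Fin n → ℕ) (t : ℕ) (G : Realization d) : ℝ :=
  (1 / 2) * ∑ H, |(transition d ^ t) G H - 1 / (Fintype.card (Realization d) : ℝ)|

end Vale.Agent.P335
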