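import Vale.Agent.P335.Pairing
import Vale.Agent.P335.Correct
import Vale.Agent.P335.Climb
import Mathlib.GroupTheory.OrderOfElement
import Mathlib.Algebra.Group.Semiconj.Units
import Mathlib.Algebra.Order.Ring.Int

/-! The closed trails of a pairing and the walk of two climbers along each of them. -/

open Finset
open scoped symmDiff

namespace Vale.Agent.P335

variable {n : ℕ}

/-- The next dart of the trail. -/
def step (ψ : Equiv.Perm (Fin n × Fin n)) : Equiv.Perm (Fin n × Fin n) := ψ * rev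

open Classical in
/-- The edges of the closed trail through `x`. -/
noncomputable def circ (ψ : Equiv.Perm (Fin n × Fin n)) (x : Fin n × Fin n) :
    Finset (Sym2 (Fin n)) :=
  univ.filter (fun e => ∃ k : ℤ, dedge ((step ψ ^ k) x) = e)

/-- The first `m` edges of the trail starting at `y`. -/
def seg (ψ : Equiv.Perm (Fin n × Fin n)) (y : Fin n × Fin n) (m : ℕ) : Finset (Sym2 (Fin n)) :=
  (range m).image (fun t : ℕ => dedge ((step ψ ^ (t : ℤ)) y))

/-- A set of edges closed under the pairing. -/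
def IsClosedSet (ψ : Equiv.Perm (Fin n × Fin n)) (P : Finset (Sym2 (Fin n))) : Prop :=
  ∀ x, dedge x ∈ P → dedge (ψ x) ∈ P

/-- `G`, `H` realise `d` and `ψ` pairs their difference. -/
structure Ctx (d : Fin n → ℕ) (G H : Finset (Sym2 (Fin n)))
    (ψ : Equiv.Perm (Fin n × Fin n)) : Prop where
  realG : IsReal d G
  realH : IsReal d H
  pair : IsPairing (G ∆ H) (dartsIn G) ψ

/-- An admissible toggled set. -/
def Valid (d : Fin n → ℕ) (G H : Finset (Sym2 (Fin n))) (ψ : Equiv.Perm (Fin n × Fin n))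
    (S : Finset (Finset (Sym2 (Fin n)))) (F : Finset (Sym2 (Fin n))) : Prop :=
  F ∈ S ∧ (defects ψ F).card ≤ 2 ∧ Fixable d 4 (G ∆ F) ∧ Fixable d 2 (H ∆ F)

/-- Consecutive admissible sets. -/
def Step (d : Fin n → ℕ) (G H : Finset (Sym2 (Fin n))) (ψ : Equiv.Perm (Fin n × Fin n))
    (S : Finset (Finset (Sym2 (Fin n)))) (F F' : Finset (Sym2 (Fin n))) : Prop :=
  Valid d G H ψ S F ∧ Valid d G H ψ S F' ∧ (F ∆ F').card ≤ 8

theorem step_fst_eq {ψ : Equiv.Perm (Fin n × Fin n)} (h : ∀ x, (ψ x).1 = x.1)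
    (x : Fin n × Fin n) : (step ψ x).1 = x.2 := by
  simp [step, Equiv.Perm.mul_apply, h]

theorem zpow_succ_apply (σ : Equiv.Perm (Fin n × Fin n)) (k : ℤ) (x : Fin n × Fin n) :
    (σ ^ (k + 1)) x = σ ((σ ^ k) x) := by
  rw [add_comm, zpow_one_add, Equiv.Perm.mul_apply]

theorem zpow_add_apply (σ : Equiv.Perm (Fin n × Fin n)) (k l : ℤ) (x : Fin n × Fin n) :
    (σ ^ (k + l)) x = (σ ^ k) ((σ ^ l) x) := by
  rw [zpow_add, Equiv.Perm.mul_apply]

theorem mem_seg {ψ : Equiv.Perm (Fin n × Fin n)} {x : Fin n × Fin n} {lo : ℤ} {m : ℕ}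
    {e : Sym2 (Fin n)} : e ∈ seg ψ ((step ψ ^ lo) x) m ↔
      ∃ k : ℤ, lo ≤ k ∧ k < lo + m ∧ dedge ((step ψ ^ k) x) = e := by
  simp only [seg, mem_image, mem_range]
  constructor
  · rintro ⟨t, ht, rfl⟩
    exact ⟨t + lo, by omega, by omega, by rw [zpow_add_apply]⟩
  · rintro ⟨k, h1, h2, rfl⟩
    obtain ⟨t, ht⟩ := Int.eq_ofNat_of_zero_le (show 0 ≤ k - lo by omega)
    exact ⟨t, by omega, by rw [← zpow_add_apply, show (t : ℤ) + lo = k by omega]⟩

variable {d : Fin n → ℕ} {G H : Finset (Sym2 (Fin n))} {ψ : Equiv.Perm (Fin n × Fin n)}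

theorem Ctx.fst (c : Ctx d G H ψ) (x : Fin n × Fin n) : (ψ x).1 = x.1 := (c.pair x).1

theorem Ctx.invol (c : Ctx d G H ψ) (x : Fin n × Fin n) : ψ (ψ x) = x := (c.pair x).2.1

theorem Ctx.loopless (c : Ctx d G H ψ) : Loopless (G ∆ H) := c.realG.1.toggle c.realH.1

theorem Ctx.psi_mem (c : Ctx d G H ψ) {x : Fin n × Fin n} (h : dedge x ∈ G ∆ H) :
    dedge (ψ x) ∈ G ∆ H := ((c.pair x).2.2.2 h).1

theorem Ctx.psi_colour (c : Ctx d G H ψ) {x : Fin n × Fin n} (h : dedge x ∈ G ∆ H) :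
    dedge (ψ x) ∈ G ↔ dedge x ∉ G := by simpa using ((c.pair x).2.2.2 h).2

theorem Ctx.psi_colourH (c : Ctx d G H ψ) {x : Fin n × Fin n} (h : dedge x ∈ G ∆ H) :
    dedge (ψ x) ∈ H ↔ dedge x ∉ H := by
  have h' := c.psi_mem h
  have := c.psi_colour h
  rw [mem_symmDiff] at h h'
  tauto

theorem Ctx.step_inv (c : Ctx d G H ψ) (x : Fin n × Fin n) : (step ψ)⁻¹ x = rev (ψ x) := by
  rw [Equiv.Perm.inv_eq_iff_eq]
  simp [step, Equiv.Perm.mul_apply, c.invol]

theorem Ctx.trail_mem (c : Ctx d G H ψ) {x : Fin n × Fin n} (h : dedge x ∈ G ∆ H) (k : ℤ) :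
    dedge ((step ψ ^ k) x) ∈ G ∆ H := by
  induction k with
  | zero => simpa using h
  | succ k ih =>
    rw [zpow_succ_apply]
    have := c.psi_mem (x := rev ((step ψ ^ (k : ℤ)) x)) (by simpa using ih)
    simpa [step, Equiv.Perm.mul_apply] using this
  | pred k ih =>
    have : (step ψ ^ (-(k : ℤ) - 1)) x = (step ψ)⁻¹ ((step ψ ^ (-(k : ℤ))) x) := by
      rw [Equiv.Perm.eq_inv_iff_eq, ← zpow_succ_apply]; simp
    rw [this, c.step_inv, dedge_rev]
    exact c.psi_mem ih

theorem Ctx.trail_colour (c : Ctx d G H ψ) {x : Fin n × Fin n} (h : dedge x ∈ G ∆ H)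
    (hx : dedge x ∈ G) (k : ℤ) : dedge ((step ψ ^ k) x) ∈ G ↔ Even k := by
  have alt : ∀ l : ℤ, dedge ((step ψ ^ (l + 1)) x) ∈ G ↔ dedge ((step ψ ^ l) x) ∉ G := by
    intro l
    rw [zpow_succ_apply]
    have := c.psi_colour (x := rev ((step ψ ^ l) x)) (by simpa using c.trail_mem h l)
    simpa [step, Equiv.Perm.mul_apply] using this
  induction k with
  | zero => simpa using hx
  | succ k ih => rw [alt, not_congr ih, Int.even_add_one]
  | pred k ih =>
    have := alt (-(k : ℤ) - 1)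
    rw [sub_add_cancel] at this
    have := ih.symm.trans this
    rw [Int.even_sub, this]
    simp only [Int.not_even_one, iff_false, not_not]

theorem Ctx.rev_zpow (c : Ctx d G H ψ) (t : ℤ) (y : Fin n × Fin n) :
    rev ((step ψ ^ t) y) = (step ψ ^ (-t)) (rev y) := by
  have h : SemiconjBy (rev : Equiv.Perm (Fin n × Fin n)) (step ψ) (step ψ)⁻¹ := by
    refine Equiv.ext (fun x => ?_)
    simp only [Equiv.Perm.mul_apply, c.step_inv]
    simp [step, Equiv.Perm.mul_apply]
  have := (h.zpow_right t).eq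
  have e := congrArg (fun σ : Equiv.Perm (Fin n × Fin n) => σ y) this
  simpa [Equiv.Perm.mul_apply] using e

theorem exists_period (x : Fin n × Fin n) (ψ : Equiv.Perm (Fin n × Fin n)) :
    ∃ p : ℕ, 0 < p ∧ p ≤ n * n ∧ ∀ k l : ℤ,
      (step ψ ^ k) x = (step ψ ^ l) x ↔ (p : ℤ) ∣ k - l := by
  classical
  have hex : ∃ p : ℕ, 0 < p ∧ (step ψ ^ (p : ℤ)) x = x :=
    ⟨orderOf (step ψ), orderOf_pos _, by simp [pow_orderOf_eq_one]⟩
  let p := Nat.find hex
  obtain ⟨hp, hpx⟩ := Nat.find_spec hex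
  have hmul : ∀ q : ℤ, (step ψ ^ ((p : ℤ) * q)) x = x := fun q => by
    rw [zpow_mul]
    exact Equiv.Perm.zpow_apply_eq_self_of_apply_eq_self hpx q
  have key : ∀ r : ℤ, (step ψ ^ r) x = x ↔ (p : ℤ) ∣ r := by
    intro r
    constructor
    · intro h
      by_contra hr
      have h0 : 0 ≤ r % (p : ℤ) := Int.emod_nonneg _ (by omega)
      have h1 : r % (p : ℤ) < p := Int.emod_lt_of_pos _ (by omega)
      have h2 : r % (p : ℤ) ≠ 0 := fun e => hr (Int.dvd_of_emod_eq_zero e)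
      have : (step ψ ^ (r % (p : ℤ))) x = x := by
        have e : r = r % (p : ℤ) + (p : ℤ) * (r / (p : ℤ)) := (Int.emod_add_mul_ediv r p).symm
        rw [e, zpow_add_apply, hmul] at h
        exact h
      obtain ⟨t, ht⟩ := Int.eq_ofNat_of_zero_le h0
      rw [ht] at this h1 h2
      exact Nat.find_min hex (m := t) (by omega) ⟨by omega, this⟩
    · rintro ⟨q, rfl⟩; exact hmul q
  have hiff : ∀ k l : ℤ, (step ψ ^ k) x = (step ψ ^ l) x ↔ (p : ℤ) ∣ k - l := by
    intro k l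
    rw [← key (k - l), sub_eq_neg_add, zpow_add_apply, zpow_neg, Equiv.Perm.inv_eq_iff_eq]
  refine ⟨p, hp, ?_, hiff⟩
  have hinj : Function.Injective (fun i : Fin p => (step ψ ^ ((i : ℕ) : ℤ)) x) := by
    intro i j hij
    obtain ⟨q, hq⟩ := (hiff _ _).mp hij
    apply Fin.ext
    have hi := i.isLt
    have hj := j.isLt
    have hq0 : q = 0 := by
      by_contra hne
      rcases lt_or_gt_of_ne hne with h | h <;> nlinarith
    subst hq0
    omega
  simpa using Fintype.card_le_of_injective _ hinj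

theorem eq_zero_of_dvd_of_lt {p r : ℤ} (h : p ∣ r) (h1 : -p < r) (h2 : r < p) : r = 0 :=
  Int.eq_zero_of_abs_lt_dvd h (abs_lt.mpr ⟨h1, h2⟩)

theorem Ctx.trail_inj (c : Ctx d G H ψ) {x : Fin n × Fin n} (h : dedge x ∈ G ∆ H)
    (hx : dedge x ∈ G) {p : ℕ}
    (hp : ∀ k l : ℤ, (step ψ ^ k) x = (step ψ ^ l) x ↔ (p : ℤ) ∣ k - l) {k l : ℤ}
    (he : dedge ((step ψ ^ k) x) = dedge ((step ψ ^ l) x)) : (p : ℤ) ∣ k - l := by
  have hcases : (step ψ ^ k) x = (step ψ ^ l) x ∨ (step ψ ^ k) x = rev ((step ψ ^ l) x) := by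
    simp only [dedge] at he
    rcases Sym2.eq_iff.mp he with ⟨a, b⟩ | ⟨a, b⟩
    · exact Or.inl (Prod.ext a b)
    · exact Or.inr (Prod.ext a b)
  rcases hcases with e | e
  · exact (hp k l).mp e
  · exfalso
    have hpar : Even k ↔ Even l := by
      rw [← c.trail_colour h hx k, ← c.trail_colour h hx l, he]
    obtain ⟨t, ht⟩ : Even (k - l) := by rw [Int.even_sub]; exact hpar
    set z := (step ψ ^ (l + t)) x with hz
    have hz' : rev z = z := by
      rw [hz, show l + t = t + l by ring, zpow_add_apply, c.rev_zpow, ← e, ← zpow_add_apply,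
        show -t + k = t + l by omega, zpow_add_apply]
    have : dedge z ∈ G ∆ H := c.trail_mem h _
    refine c.loopless _ this ?_
    have h12 : z.2 = z.1 := by simpa using congrArg Prod.fst hz'
    simp [dedge, h12]

theorem Ctx.closed_circ (c : Ctx d G H ψ) (x : Fin n × Fin n) : IsClosedSet ψ (circ ψ x) := by
  intro y hy
  simp only [circ, mem_filter, mem_univ, true_and] at hy ⊢
  obtain ⟨k, hk⟩ := hy
  simp only [dedge] at hk
  rcases Sym2.eq_iff.mp hk with ⟨a, b⟩ | ⟨a, b⟩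
  · have : (step ψ ^ k) x = y := Prod.ext a b
    refine ⟨k - 1, ?_⟩
    have e : (step ψ ^ (k - 1)) x = rev (ψ y) := by
      rw [← c.step_inv, Equiv.Perm.eq_inv_iff_eq, ← zpow_succ_apply, sub_add_cancel, this]
    rw [e, dedge_rev]
  · have : (step ψ ^ k) x = rev y := Prod.ext a b
    exact ⟨k + 1, by rw [zpow_succ_apply, this]; simp [step, Equiv.Perm.mul_apply]⟩

theorem Ctx.circ_subset (c : Ctx d G H ψ) {x : Fin n × Fin n} (h : dedge x ∈ G ∆ H) :
    circ ψ x ⊆ G ∆ H := by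
  intro e he
  simp only [circ, mem_filter, mem_univ, true_and] at he
  obtain ⟨k, rfl⟩ := he
  exact c.trail_mem h k

theorem Ctx.circ_disjoint (c : Ctx d G H ψ) {x : Fin n × Fin n}
    {P : Finset (Sym2 (Fin n))} (hP : IsClosedSet ψ P) (hx : dedge x ∉ P) (k : ℤ) :
    dedge ((step ψ ^ k) x) ∉ P := by
  induction k with
  | zero => simpa using hx
  | succ k ih =>
    intro hmem
    apply ih
    have := hP _ hmem
    rw [zpow_succ_apply] at this
    simpa [step, Equiv.Perm.mul_apply, c.invol] using this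
  | pred k ih =>
    intro hmem
    apply ih
    have := hP (rev ((step ψ ^ (-(k : ℤ) - 1)) x)) (by simpa using hmem)
    have e : ψ (rev ((step ψ ^ (-(k : ℤ) - 1)) x)) = (step ψ ^ (-(k : ℤ))) x := by
      have := zpow_succ_apply (step ψ) (-(k : ℤ) - 1) x
      simpa [step, Equiv.Perm.mul_apply] using this.symm
    rwa [e] at this

theorem sum_closed_eq_zero (hfst : ∀ x, (ψ x).1 = x.1) (hinv : ∀ x, ψ (ψ x) = x)
    {Y P : Finset (Sym2 (Fin n))} (hP : IsClosedSet ψ P)
    (hY : ∀ x, dedge x ∈ P → (dedge (ψ x) ∈ Y ↔ dedge x ∉ Y)) (v : Fin n) :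
    ∑ e ∈ P, (if e ∈ Y then (-1 : ℤ) else 1) * inc v e = 0 := by
  have h1 : ∑ e ∈ P, (if e ∈ Y then (-1 : ℤ) else 1) * inc v e =
      ∑ e ∈ P.filter (fun e => v ∈ e), (if e ∈ Y then (-1 : ℤ) else 1) := by
    rw [sum_filter]
    refine sum_congr rfl (fun e _ => ?_)
    by_cases hv : v ∈ e <;> simp [inc, hv]
  have h2 : P.filter (fun e => v ∈ e) =
      ((dartsIn P).filter (fun x => x.1 = v)).image dedge := by
    ext e
    simp only [mem_filter, mem_image, mem_dartsIn]
    constructor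
    · rintro ⟨he, hv⟩
      refine ⟨(v, Sym2.Mem.other hv), ⟨?_, rfl⟩, Sym2.other_spec hv⟩
      simp only [dedge]; rw [Sym2.other_spec hv]; exact he
    · rintro ⟨x, ⟨hx, rfl⟩, rfl⟩
      exact ⟨hx, Sym2.mem_mk_left _ _⟩
  rw [h1, h2, sum_image]
  · refine sum_involution (fun x _ => ψ x) ?_ ?_ ?_ (fun x _ => hinv x)
    · intro x hx
      simp only [mem_filter, mem_dartsIn] at hx
      have := hY x hx.1
      by_cases a : dedge x ∈ Y <;> simp [a, this]
    · intro x hx _ he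
      simp only [mem_filter, mem_dartsIn] at hx
      have := hY x hx.1
      rw [he] at this
      tauto
    · intro x hx
      simp only [mem_filter, mem_dartsIn] at hx ⊢
      exact ⟨hP x hx.1, by rw [hfst]; exact hx.2⟩
  · intro x hx y hy he
    simp only [coe_filter, Set.mem_ofPred_eq] at hx hy
    have h' : s(x.1, x.2) = s(x.1, y.2) := by
      simp only [dedge] at he
      rw [he, hx.2, hy.2]
    exact Prod.ext (hx.2.trans hy.2.symm) (Sym2.congr_right.mp h')

theorem Ctx.toggle_deg (c : Ctx d G H ψ) {x : Fin n × Fin n} (h : dedge x ∈ G ∆ H)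
    (hx : dedge x ∈ G) {p : ℕ}
    (hp : ∀ k l : ℤ, (step ψ ^ k) x = (step ψ ^ l) x ↔ (p : ℤ) ∣ k - l)
    {P : Finset (Sym2 (Fin n))} (hP : IsClosedSet ψ P) (hPD : P ⊆ G ∆ H) (hxP : dedge x ∉ P)
    {lo : ℤ} {m : ℕ} (hlo : Even lo) (hm : Even m) (hmp : m ≤ p) (v : Fin n) :
    deg (G ∆ (P ∪ seg ψ ((step ψ ^ lo) x) m)) v =
        (d v : ℤ) - ind v ((step ψ ^ lo) x).1 + ind v ((step ψ ^ (lo + m)) x).1 ∧
      deg (H ∆ (P ∪ seg ψ ((step ψ ^ lo) x) m)) v =
        (d v : ℤ) + ind v ((step ψ ^ lo) x).1 - ind v ((step ψ ^ (lo + m)) x).1 := by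
  set V : ℕ → Fin n := fun t => ((step ψ ^ (lo + t)) x).1 with hV
  have hdisj : Disjoint P (seg ψ ((step ψ ^ lo) x) m) := by
    rw [disjoint_left]
    intro e he hs
    obtain ⟨k, -, -, rfl⟩ := mem_seg.mp hs
    exact c.circ_disjoint hP hxP k he
  have hseg : ∀ Y : Finset (Sym2 (Fin n)), ∀ σ : ℤ,
      (∀ k : ℤ, (if dedge ((step ψ ^ k) x) ∈ Y then (-1 : ℤ) else 1) =
        σ * if Even k then 1 else -1) →
      ∑ e ∈ seg ψ ((step ψ ^ lo) x) m, (if e ∈ Y then (-1 : ℤ) else 1) * inc v e =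
        σ * (ind v (V 0) - ind v (V m)) := by
    intro Y σ hY
    set a : ℕ → ℤ := fun t => (if Even t then (1 : ℤ) else -1) * ind v (V t) with ha
    have : ∀ t ∈ range m, (if dedge ((step ψ ^ (t : ℤ)) ((step ψ ^ lo) x)) ∈ Y then (-1 : ℤ)
        else 1) * inc v (dedge ((step ψ ^ (t : ℤ)) ((step ψ ^ lo) x))) =
        σ * (a t - a (t + 1)) := by
      intro t _
      rw [← zpow_add_apply, add_comm (t : ℤ) lo, hY]
      have hne : V t ≠ ((step ψ ^ (lo + t)) x).2 :=
        ne_of_mem c.loopless (c.trail_mem h _)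
      have hnext : ((step ψ ^ (lo + t)) x).2 = V (t + 1) := by
        rw [hV]
        simp only
        rw [show lo + ((t + 1 : ℕ) : ℤ) = (lo + t) + 1 by push_cast; ring, zpow_succ_apply,
          step_fst_eq c.fst]
      have hev : Even (lo + (t : ℤ)) ↔ Even t := by
        simp [Int.even_add, hlo]
      simp only [ha, dedge]
      rw [inc_mk v hne, hnext, if_congr hev rfl rfl]
      by_cases ht : Even t <;> simp [ht, Nat.even_add_one, hV] <;> ring
    rw [seg, sum_image, sum_congr rfl this, ← mul_sum, sum_range_sub']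
    · simp [ha, hm]
    · intro t ht t' ht' he
      simp only [coe_range, Set.mem_Iio] at ht ht'
      simp only [← zpow_add_apply] at he
      have := eq_zero_of_dvd_of_lt (c.trail_inj h hx hp he) (by omega) (by omega)
      omega
  have hsG : ∀ k : ℤ, (if dedge ((step ψ ^ k) x) ∈ G then (-1 : ℤ) else 1) =
      (-1) * if Even k then 1 else -1 := by
    intro k
    simp only [c.trail_colour h hx k]
    by_cases hk : Even k <;> simp [hk]
  have hsH : ∀ k : ℤ, (if dedge ((step ψ ^ k) x) ∈ H then (-1 : ℤ) else 1) =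
      1 * if Even k then 1 else -1 := by
    intro k
    have := c.trail_mem h k
    have hG' := c.trail_colour h hx k
    rw [mem_symmDiff] at this
    by_cases hk : Even k
    · have : dedge ((step ψ ^ k) x) ∉ H := by tauto
      simp [hk, this]
    · have : dedge ((step ψ ^ k) x) ∈ H := by tauto
      simp [hk, this]
  constructor
  · rw [deg_symmDiff, c.realG.2 v, sum_union hdisj,
      sum_closed_eq_zero c.fst c.invol hP (fun y hy => c.psi_colour (hPD hy)) v, hseg G _ hsG]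
    simp [hV]; ring
  · rw [deg_symmDiff, c.realH.2 v, sum_union hdisj,
      sum_closed_eq_zero c.fst c.invol hP (fun y hy => c.psi_colourH (hPD hy)) v, hseg H _ hsH]
    simp [hV]; ring

theorem Ctx.defects_card (c : Ctx d G H ψ) (x : Fin n × Fin n) {P : Finset (Sym2 (Fin n))}
    (hP : IsClosedSet ψ P) (lo : ℤ) (m : ℕ) :
    (defects ψ (P ∪ seg ψ ((step ψ ^ lo) x) m)).card ≤ 2 := by
  refine le_trans (card_le_card (t := {(step ψ ^ lo) x, rev ((step ψ ^ (lo + m - 1)) x)}) ?_)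
    card_le_two
  intro y hy
  simp only [defects, mem_filter, mem_univ, true_and, mem_union] at hy
  obtain ⟨hyF, hyn⟩ := hy
  rw [not_or] at hyn
  rcases hyF with hyP | hys
  · exact absurd (hP y hyP) hyn.1
  obtain ⟨k, hk1, hk2, hk⟩ := mem_seg.mp hys
  simp only [dedge] at hk
  simp only [mem_insert, mem_singleton]
  rcases Sym2.eq_iff.mp hk with ⟨a, b⟩ | ⟨a, b⟩
  · have hy' : (step ψ ^ k) x = y := Prod.ext a b
    left
    by_contra hne
    apply hyn.2
    refine mem_seg.mpr ⟨k - 1, ?_, by omega, ?_⟩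
    · rcases lt_or_eq_of_le hk1 with h | h
      · omega
      · exact absurd (h ▸ hy'.symm) hne
    · have e : (step ψ ^ (k - 1)) x = rev (ψ y) := by
        rw [← c.step_inv, Equiv.Perm.eq_inv_iff_eq, ← zpow_succ_apply, sub_add_cancel, hy']
      rw [e, dedge_rev]
  · have hy' : (step ψ ^ k) x = rev y := Prod.ext a b
    right
    by_contra hne
    apply hyn.2
    refine mem_seg.mpr ⟨k + 1, by omega, ?_, ?_⟩
    · by_contra hlt
      apply hne
      rw [show lo + m - 1 = k by omega, hy', rev_rev]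
    · rw [zpow_succ_apply, hy']; simp [step, Equiv.Perm.mul_apply]

theorem Ctx.toggle_mem (c : Ctx d G H ψ) {x : Fin n × Fin n} (h : dedge x ∈ G ∆ H)
    (hx : dedge x ∈ G) {p : ℕ}
    (hp : ∀ k l : ℤ, (step ψ ^ k) x = (step ψ ^ l) x ↔ (p : ℤ) ∣ k - l)
    {P : Finset (Sym2 (Fin n))} (hP : IsClosedSet ψ P) (hxP : dedge x ∉ P)
    {lo : ℤ} {m : ℕ} {k : ℤ} (h1 : lo + m - p ≤ k) (h2 : k < lo + p) :
    dedge ((step ψ ^ k) x) ∈ G ∆ (P ∪ seg ψ ((step ψ ^ lo) x) m) ↔
      (Even k ↔ ¬ (lo ≤ k ∧ k < lo + m)) := by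
  have hkP := c.circ_disjoint hP hxP k
  have hks : dedge ((step ψ ^ k) x) ∈ seg ψ ((step ψ ^ lo) x) m ↔
      (lo ≤ k ∧ k < lo + m) := by
    rw [mem_seg]
    constructor
    · rintro ⟨l, l1, l2, he⟩
      have := eq_zero_of_dvd_of_lt (c.trail_inj h hx hp he) (by omega) (by omega)
      omega
    · rintro ⟨a, b⟩; exact ⟨k, a, b, rfl⟩
  rw [mem_symmDiff, mem_union, c.trail_colour h hx k, hks]
  tauto

/-- One closed trail is crossed by admissible steps. -/
theorem Ctx.trail_connect (c : Ctx d G H ψ) {x : Fin n × Fin n} (h : dedge x ∈ G ∆ H)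
    (hx : dedge x ∈ G) {S : Finset (Finset (Sym2 (Fin n)))} {P : Finset (Sym2 (Fin n))}
    (hP : IsClosedSet ψ P) (hPD : P ⊆ G ∆ H) (hxP : dedge x ∉ P)
    (hS : ∀ y, ∀ m ≤ n * n, P ∪ seg ψ y m ∈ S) :
    Relation.ReflTransGen (Step d G H ψ S) P (P ∪ circ ψ x) := by
  classical
  obtain ⟨p, hp0, hpn, hp⟩ := exists_period x ψ
  set X : ℤ → Fin n × Fin n := fun k => (step ψ ^ k) x with hX
  have hloop : ∀ k : ℤ, (X k).1 ≠ (X k).2 := fun k => ne_of_mem c.loopless (c.trail_mem h k)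
  have hnext : ∀ k : ℤ, (X k).2 = (X (k + 1)).1 := fun k => by
    simp only [hX]; rw [zpow_succ_apply, step_fst_eq c.fst]
  have hper : ∀ k l : ℤ, (p : ℤ) ∣ k - l → X k = X l := fun k l hkl => (hp k l).mpr hkl
  obtain ⟨L, hL⟩ : Even (p : ℤ) := by
    rw [← c.trail_colour h hx (p : ℤ)]
    rw [show (step ψ ^ (p : ℤ)) x = x by simpa using (hp p 0).mpr (by simp)]
    exact hx
  have hL2 : 2 ≤ L := by
    by_contra hlt
    have hp2 : (p : ℤ) = 2 := by omega
    have e : dedge (X 0) = dedge (X 1) := by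
      simp only [dedge]
      rw [hnext 0, zero_add, hnext 1, show (X (1 + 1)).1 = (X 0).1 by
        rw [hper (1 + 1) 0 (by rw [hp2]; norm_num)]]
      exact Sym2.eq_swap
    have := c.trail_inj h hx hp e
    rw [hp2] at this
    omega
  obtain ⟨L', rfl⟩ := Int.eq_ofNat_of_zero_le (show 0 ≤ L by omega)
  have hpL : p = 2 * L' := by omega
  let v : ℤ → Fin n := fun t => (X (2 * t)).1
  let K : ℤ → ℕ := fun t => d (v t) * L' + (t % (L' : ℤ)).toNat
  have hmod : ∀ t : ℤ, (t % (L' : ℤ)).toNat < L' := fun t => by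
    have := Int.emod_lt_of_pos t (show (0 : ℤ) < L' by omega)
    have := Int.emod_nonneg t (show (L' : ℤ) ≠ 0 by omega)
    omega
  have hKd : ∀ s t, K s ≤ K t → d (v s) ≤ d (v t) := by
    intro s t hst
    by_contra hlt
    simp only [K] at hst
    have := hmod t
    have : (d (v t) + 1) * L' ≤ d (v s) * L' := Nat.mul_le_mul_right L' (by omega)
    rw [Nat.add_mul, Nat.one_mul] at this
    omega
  have hKinj : ∀ s t, K s = K t → (L' : ℤ) ∣ s - t := by
    intro s t hst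
    have h1 := congrArg (· % L') hst
    simp only [K, Nat.mul_add_mod', Nat.mod_eq_of_lt (hmod s), Nat.mod_eq_of_lt (hmod t)] at h1
    have := Int.emod_nonneg s (show (L' : ℤ) ≠ 0 by omega)
    have := Int.emod_nonneg t (show (L' : ℤ) ≠ 0 by omega)
    exact Int.dvd_of_emod_eq_zero (Int.emod_eq_emod_iff_emod_sub_eq_zero.mp (by omega))
  have hKper : ∀ s t, (L' : ℤ) ∣ s - t → K s = K t := by
    intro s t hst
    have hv : X (2 * s) = X (2 * t) := hper _ _ (by
      obtain ⟨q, hq⟩ := hst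
      exact ⟨q, by rw [hpL]; push_cast; linarith⟩)
    simp only [K, v, hv, Int.emod_eq_emod_iff_emod_sub_eq_zero.mpr (Int.emod_eq_zero_of_dvd hst)]
  obtain ⟨tM, htM, hM⟩ := exists_max_image (range L') (fun t : ℕ => K t) ⟨0, mem_range.mpr (by omega)⟩
  obtain ⟨tm, htm, hmin⟩ := exists_min_image (range L') (fun t : ℕ => K t) ⟨0, mem_range.mpr (by omega)⟩
  have hbound : ∀ t : ℤ, K tm ≤ K t ∧ K t ≤ K tM := by
    intro t
    obtain ⟨r, hr⟩ := Int.eq_ofNat_of_zero_le (Int.emod_nonneg t (show (L' : ℤ) ≠ 0 by omega))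
    have hr' : r < L' := by
      have := Int.emod_lt_of_pos t (show (0 : ℤ) < L' by omega)
      omega
    have e : K t = K r := hKper _ _ (by rw [← hr]; exact Int.dvd_self_sub_of_emod_eq rfl)
    rw [e]
    exact ⟨hmin r (mem_range.mpr hr'), hM r (mem_range.mpr hr')⟩
  rw [mem_range] at htM htm
  have hne : tM ≠ tm := by
    intro e
    have h0 := hbound 0
    have h1 := hbound 1
    rw [e] at h0 h1
    have := eq_zero_of_dvd_of_lt (hKinj 0 1 (by omega)) (by omega) (by omega)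
    omega
  obtain ⟨b, hb⟩ : ∃ b : ℕ, (b : ℤ) = if tM ≤ tm then (tm : ℤ) - tM else tm - tM + L' :=
    ⟨(if tM ≤ tm then (tm : ℤ) - tM else tm - tM + L').toNat, by split_ifs <;> omega⟩
  have hb1 : 1 ≤ b ∧ b < L' := by split_ifs at hb <;> omega
  set a := L' - b with ha
  have hbK : K (tM + b) = K tm := hKper _ _ (by
    split_ifs at hb
    · exact ⟨0, by omega⟩
    · exact ⟨1, by omega⟩)
  have haK : K (tM - a) = K tm := by
    rw [← hbK]; exact hKper _ _ ⟨-1, by omega⟩
  let T : ℕ → ℕ → Prop := fun i j => K (tM + j) ≤ K (tM - i)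
  have hclimb := climb a b T (by omega) hb1.1
    (fun j _ => by simp only [T, Nat.cast_zero, sub_zero]; exact (hbound _).2)
    (fun i _ => by simp only [T, hbK]; exact (hbound _).1)
    (fun i h1 h2 hT => by
      simp only [T, Nat.cast_zero, add_zero] at hT
      have := eq_zero_of_dvd_of_lt (hKinj _ _ (le_antisymm ((hbound _).2) hT)) (by omega) (by omega)
      omega)
    (fun j hj hT => by
      simp only [T] at hT
      rw [haK] at hT
      have := eq_zero_of_dvd_of_lt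
        (hKinj _ _ ((le_antisymm hT ((hbound _).1)).trans hbK.symm)) (by omega) (by omega)
      omega)
  let Φ : ℕ × ℕ → Finset (Sym2 (Fin n)) := fun q =>
    P ∪ seg ψ (X (2 * ((tM : ℤ) - q.1))) (2 * (q.1 + q.2))
  have hvalid : ∀ q, Good a b T q → Valid d G H ψ S (Φ q) := by
    rintro ⟨i, j⟩ ⟨hi, hj, hT, ⟨i', j'⟩, hi', hj', hF, hq⟩
    simp only at hi hj hT hi' hj' hF hq
    have hdeg := c.toggle_deg h hx hp hP hPD hxP (lo := 2 * ((tM : ℤ) - i)) (m := 2 * (i + j))
      (even_two_mul _) (even_two_mul _) (by omega)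
    have hmem := fun k : ℤ => c.toggle_mem h hx hp hP hxP (lo := 2 * ((tM : ℤ) - i))
      (m := 2 * (i + j)) (k := k)
    have hend : 2 * ((tM : ℤ) - i) + ((2 * (i + j) : ℕ) : ℤ) = 2 * ((tM : ℤ) + j) := by
      push_cast; ring
    simp only [hend] at hdeg hmem
    have hle : d (v (tM + j)) ≤ d (v (tM - i)) := hKd _ _ hT
    have hl : Loopless (P ∪ seg ψ (X (2 * ((tM : ℤ) - i))) (2 * (i + j))) := by
      intro e he
      rcases mem_union.mp he with he | he
      · exact c.loopless e (hPD he)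
      · obtain ⟨k, -, -, rfl⟩ := mem_seg.mp he
        exact c.loopless _ (c.trail_mem h k)
    refine ⟨hS _ _ ?_, c.defects_card x hP _ _, ?_,
      fix_encoding (c.realH.1.toggle hl) (fun u => (hdeg u).2) hle⟩
    · show 2 * (i + j) ≤ n * n
      omega
    refine fix_state (c.realG.1.toggle hl) (fun u => (hdeg u).1) ?_
    have edge : ∀ k : ℤ, dedge (X k) = s((X k).1, (X (k + 1)).1) := fun k => by
      rw [← hnext]; rfl
    have hFd := hKd _ _ (le_of_not_ge hF)
    have ne1 : ∀ k : ℤ, (X k).1 ≠ (X (k + 1)).1 := fun k => hnext k ▸ hloop k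
    have hin : ∀ k : ℤ, 2 * ((tM : ℤ) + j) - p ≤ k → k < 2 * ((tM : ℤ) - i) + p →
        (Even k ↔ ¬ (2 * ((tM : ℤ) - i) ≤ k ∧ k < 2 * ((tM : ℤ) + j))) →
        s((X k).1, (X (k + 1)).1) ∈
          G ∆ (P ∪ seg ψ (X (2 * ((tM : ℤ) - i))) (2 * (i + j))) := fun k k1 k2 k3 => by
      rw [← edge]; exact (hmem k k1 k2).mpr k3
    have hout : ∀ k : ℤ, 2 * ((tM : ℤ) + j) - p ≤ k → k < 2 * ((tM : ℤ) - i) + p →
        ¬ (Even k ↔ ¬ (2 * ((tM : ℤ) - i) ≤ k ∧ k < 2 * ((tM : ℤ) + j))) →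
        s((X k).1, (X (k + 1)).1) ∉
          G ∆ (P ∪ seg ψ (X (2 * ((tM : ℤ) - i))) (2 * (i + j))) := fun k k1 k2 k3 => by
      rw [← edge]; exact fun h => k3 ((hmem k k1 k2).mp h)
    have ev : ∀ t : ℤ, Even (2 * t) := fun t => even_two_mul t
    have od : ∀ t : ℤ, ¬ Even (2 * t + 1) := fun t => by simp [Int.even_add_one]
    rcases hq with ⟨rfl, h2⟩ | ⟨rfl, h2⟩
    · right
      refine ⟨v (tM + j'), ?_⟩
      rcases h2 with h2 | h2
      · have e : 2 * ((tM : ℤ) + j') = 2 * ((tM : ℤ) + j) + 1 + 1 := by omega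
        refine ⟨(X (2 * ((tM : ℤ) + j) + 1)).1, hFd,
          hin _ (by omega) (by omega) (iff_of_true (ev _) (by omega)), ?_, ?_⟩
        · show s((X (2 * ((tM : ℤ) + j'))).1, _) ∉ _
          rw [e, Sym2.eq_swap]
          exact hout _ (by omega) (by omega) (fun h => od _ (h.mpr (by omega)))
        · show (X (2 * ((tM : ℤ) + j'))).1 ≠ _
          rw [e]
          exact (ne1 _).symm
      · have e : 2 * ((tM : ℤ) + j) = 2 * ((tM : ℤ) + j') + 1 + 1 := by omega
        refine ⟨(X (2 * ((tM : ℤ) + j') + 1)).1, hFd, ?_,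
          hout _ (by omega) (by omega) (fun h => h.mp (ev _) (by omega)), ne1 _⟩
        rw [show (X (2 * ((tM : ℤ) + j))).1 = (X (2 * ((tM : ℤ) + j') + 1 + 1)).1 by rw [e],
          Sym2.eq_swap]
        exact hin _ (by omega) (by omega) (iff_of_false (od _) (by omega))
    · left
      refine ⟨v (tM - i'), ?_⟩
      rcases h2 with h2 | h2
      · have e : 2 * ((tM : ℤ) - i) = 2 * ((tM : ℤ) - i') + 1 + 1 := by omega
        refine ⟨(X (2 * ((tM : ℤ) - i') + 1)).1, hFd,
          hin _ (by omega) (by omega) (iff_of_true (ev _) (by omega)), ?_, ?_⟩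
        · rw [show (X (2 * ((tM : ℤ) - i))).1 = (X (2 * ((tM : ℤ) - i') + 1 + 1)).1 by rw [e],
            Sym2.eq_swap]
          exact hout _ (by omega) (by omega) (fun h => od _ (h.mpr (by omega)))
        · rw [show (X (2 * ((tM : ℤ) - i))).1 = (X (2 * ((tM : ℤ) - i') + 1 + 1)).1 by rw [e]]
          exact (ne1 _).symm
      · have e : 2 * ((tM : ℤ) - i') = 2 * ((tM : ℤ) - i) + 1 + 1 := by omega
        refine ⟨(X (2 * ((tM : ℤ) - i) + 1)).1, hFd, ?_,
          hout _ (by omega) (by omega) (fun h => h.mp (ev _) (by omega)), ne1 _⟩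
        show s((X (2 * ((tM : ℤ) - i'))).1, _) ∈ _
        rw [e, Sym2.eq_swap]
        exact hin _ (by omega) (by omega) (iff_of_false (od _) (by omega))
  have hstep : ∀ q q' : ℕ × ℕ, Near a b T q q' → Step d G H ψ S (Φ q) (Φ q') := by
    rintro ⟨i, j⟩ ⟨i', j'⟩ ⟨g1, g2, h1, h2, h3, h4⟩
    refine ⟨hvalid _ g1, hvalid _ g2, ?_⟩
    simp only at h1 h2 h3 h4
    refine le_trans (card_le_card (t := ((Ico (2 * ((tM : ℤ) - i) - 2) (2 * ((tM : ℤ) - i) + 2)) ∪
      (Ico (2 * ((tM : ℤ) + j) - 2) (2 * ((tM : ℤ) + j) + 2))).image (fun k => dedge (X k))) ?_) ?_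
    · intro e he
      simp only [Φ, hX, mem_symmDiff, mem_union, mem_seg] at he
      simp only [mem_image, mem_union, mem_Ico, hX]
      rcases he with ⟨he | ⟨k, k1, k2, hk⟩, hn⟩ | ⟨he | ⟨k, k1, k2, hk⟩, hn⟩
      · exact absurd (Or.inl he) hn
      · refine ⟨k, ?_, hk⟩
        by_contra hc
        exact hn (Or.inr ⟨k, by omega, by omega, hk⟩)
      · exact absurd (Or.inl he) hn
      · refine ⟨k, ?_, hk⟩
        by_contra hc
        exact hn (Or.inr ⟨k, by omega, by omega, hk⟩)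
    · refine le_trans card_image_le (le_trans (card_union_le _ _) ?_)
      simp [Int.card_Ico]
  have hfinal : Relation.ReflTransGen (Step d G H ψ S) (Φ (0, 0)) (Φ (a, b)) :=
    Relation.ReflTransGen.lift Φ hstep _ _ hclimb
  have e0 : Φ (0, 0) = P := by simp [Φ, seg]
  have e1 : Φ (a, b) = P ∪ circ ψ x := by
    simp only [Φ]
    congr 1
    ext e
    simp only [hX, mem_seg, circ, mem_filter, mem_univ, true_and]
    constructor
    · rintro ⟨k, -, -, hk⟩; exact ⟨k, hk⟩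
    · rintro ⟨k, hk⟩
      set lo : ℤ := 2 * ((tM : ℤ) - a) with hlo
      refine ⟨lo + (k - lo) % (p : ℤ), ?_, ?_, ?_⟩
      · have := Int.emod_nonneg (k - lo) (show (p : ℤ) ≠ 0 by omega); omega
      · have := Int.emod_lt_of_pos (k - lo) (show (0 : ℤ) < p by omega); omega
      · rw [← hk]
        have := (hp (lo + (k - lo) % (p : ℤ)) k).mpr ⟨-((k - lo) / (p : ℤ)), by
          have := Int.emod_add_mul_ediv (k - lo) p
          rw [mul_neg]; omega⟩
        rw [this]
  rwa [e0, e1] at hfinal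

end Vale.Agent.P335
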